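import Mathlib

open MeasureTheory ProbabilityTheory

namespace Vale.Agent.Lib.P226.H35P

/-- Quaternion product of `q` (as `q 0 + q 1 i + q 2 j + q 3 k`) with the purely imaginary
quaternion `y 0 i + y 1 j + y 2 k`. -/
noncomputable def qm (q : EuclideanSpace ℝ (Fin 4)) (y : EuclideanSpace ℝ (Fin 3)) :
    EuclideanSpace ℝ (Fin 4) :=
  !₂[-(q 1 * y 0) - q 2 * y 1 - q 3 * y 2,
     q 0 * y 0 + q 2 * y 2 - q 3 * y 1,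
     q 0 * y 1 - q 1 * y 2 + q 3 * y 0,
     q 0 * y 2 + q 1 * y 1 - q 2 * y 0]

/-- The adjoint of `y ↦ qm q y`, applied to `z`. -/
noncomputable def qa (q z : EuclideanSpace ℝ (Fin 4)) : EuclideanSpace ℝ (Fin 3) :=
  !₂[-(q 1 * z 0) + q 0 * z 1 + q 3 * z 2 - q 2 * z 3,
     -(q 2 * z 0) - q 3 * z 1 + q 0 * z 2 + q 1 * z 3,
     -(q 3 * z 0) + q 2 * z 1 - q 1 * z 2 + q 0 * z 3]

theorem norm_sq4 (q : EuclideanSpace ℝ (Fin 4)) :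
    ‖q‖ ^ 2 = q 0 ^ 2 + q 1 ^ 2 + q 2 ^ 2 + q 3 ^ 2 := by
  rw [EuclideanSpace.norm_sq_eq]
  simp [Fin.sum_univ_four]

theorem norm_sq3 (y : EuclideanSpace ℝ (Fin 3)) :
    ‖y‖ ^ 2 = y 0 ^ 2 + y 1 ^ 2 + y 2 ^ 2 := by
  rw [EuclideanSpace.norm_sq_eq]
  simp [Fin.sum_univ_three]

theorem inner4 (q z : EuclideanSpace ℝ (Fin 4)) :
    inner ℝ (q) (z) = q 0 * z 0 + q 1 * z 1 + q 2 * z 2 + q 3 * z 3 := by
  simp [PiLp.inner_apply, Fin.sum_univ_four]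
  ring

theorem inner3 (y v : EuclideanSpace ℝ (Fin 3)) :
    inner ℝ (y) (v) = y 0 * v 0 + y 1 * v 1 + y 2 * v 2 := by
  simp [PiLp.inner_apply, Fin.sum_univ_three]
  ring

theorem norm_qm_sq (q : EuclideanSpace ℝ (Fin 4)) (y : EuclideanSpace ℝ (Fin 3)) :
    ‖qm q y‖ ^ 2 = ‖q‖ ^ 2 * ‖y‖ ^ 2 := by
  rw [norm_sq4, norm_sq4, norm_sq3]
  simp [qm]
  ring

theorem norm_qm (q : EuclideanSpace ℝ (Fin 4)) (y : EuclideanSpace ℝ (Fin 3)) :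
    ‖qm q y‖ = ‖q‖ * ‖y‖ := by
  have h := norm_qm_sq q y
  have h1 : ‖qm q y‖ ^ 2 = (‖q‖ * ‖y‖) ^ 2 := by rw [h]; ring
  exact (sq_eq_sq₀ (norm_nonneg _) (by positivity)).1 h1

theorem inner_qm (q : EuclideanSpace ℝ (Fin 4)) (y : EuclideanSpace ℝ (Fin 3))
    (z : EuclideanSpace ℝ (Fin 4)) : inner ℝ (qm q y) (z) = inner ℝ (y) (qa q z) := by
  rw [inner4, inner3]
  simp [qm, qa]
  ring

theorem norm_qa_sq (q z : EuclideanSpace ℝ (Fin 4)) :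
    ‖qa q z‖ ^ 2 = ‖q‖ ^ 2 * ‖z‖ ^ 2 - inner ℝ (q) (z) ^ 2 := by
  rw [norm_sq3, norm_sq4, norm_sq4, inner4]
  simp [qa]
  ring

end Vale.Agent.Lib.P226.H35P
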