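import Mathlib
import Vale.Agent.Lib.P226.helper35.Quat

open MeasureTheory ProbabilityTheory

namespace Vale.Agent.Lib.P226.H35P

/-- The support function of the finite family `z`. -/
noncomputable def hsup {E : Type*} [NormedAddCommGroup E] [InnerProductSpace ℝ E] {m : ℕ}
    (z : Fin (m + 1) → E) (x : E) : ℝ :=
  Finset.univ.sup' Finset.univ_nonempty (fun i => inner ℝ x (z i))

section hsup

variable {E : Type*} [NormedAddCommGroup E] [InnerProductSpace ℝ E] {m : ℕ}

theorem le_hsup (z : Fin (m + 1) → E) (x : E) (i : Fin (m + 1)) : inner ℝ x (z i) ≤ hsup z x :=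
  Finset.le_sup' (fun i => inner ℝ x (z i)) (Finset.mem_univ i)

theorem hsup_smul (z : Fin (m + 1) → E) (t : ℝ) (ht : 0 ≤ t) (x : E) :
    hsup z (t • x) = t * hsup z x := by
  unfold hsup
  rw [Finset.mul₀_sup' ht]
  refine Finset.sup'_congr _ rfl (fun i _ => ?_)
  rw [real_inner_smul_left]

theorem hsup_zero (z : Fin (m + 1) → E) : hsup z 0 = 0 := by
  have h := hsup_smul z 0 le_rfl 0
  simpa using h

theorem abs_hsup_le (z : Fin (m + 1) → E) (x : E) : |hsup z x| ≤ (∑ i, ‖z i‖) * ‖x‖ := by
  have hb : ∀ i, |inner ℝ x (z i)| ≤ (∑ i, ‖z i‖) * ‖x‖ := by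
    intro i
    calc |inner ℝ x (z i)| ≤ ‖x‖ * ‖z i‖ := abs_real_inner_le_norm x (z i)
      _ = ‖z i‖ * ‖x‖ := mul_comm _ _
      _ ≤ (∑ i, ‖z i‖) * ‖x‖ := by
        apply mul_le_mul_of_nonneg_right _ (norm_nonneg x)
        exact Finset.single_le_sum (f := fun i => ‖z i‖) (fun j _ => norm_nonneg _)
          (Finset.mem_univ i)
  rw [abs_le]
  constructor
  · calc -((∑ i, ‖z i‖) * ‖x‖) ≤ inner ℝ x (z 0) := by
          have := hb 0
          rw [abs_le] at this
          exact this.1
      _ ≤ hsup z x := le_hsup z x 0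
  · apply Finset.sup'_le
    intro i _
    exact (le_abs_self _).trans (hb i)

theorem continuous_hsup (z : Fin (m + 1) → E) : Continuous (hsup z) := by
  unfold hsup
  apply Continuous.finset_sup'_apply
  intro i _
  fun_prop

end hsup

abbrev E3 := EuclideanSpace ℝ (Fin 3)
abbrev E4 := EuclideanSpace ℝ (Fin 4)

/-- Right multiplication by a fixed imaginary quaternion, as a linear map. -/
noncomputable def qmLin (y : E3) : E4 →ₗ[ℝ] E4 where
  toFun q := qm q y
  map_add' a b := by
    ext i
    fin_cases i <;> simp [qm] <;> ring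
  map_smul' t a := by
    ext i
    fin_cases i <;> simp [qm] <;> ring

/-- Right multiplication by a unit imaginary quaternion, as a linear isometry equivalence. -/
noncomputable def qmIso (y : E3) (hy : ‖y‖ = 1) : E4 ≃ₗᵢ[ℝ] E4 :=
  LinearIsometry.toLinearIsometryEquiv
    ⟨qmLin y, fun q => by
      show ‖qm q y‖ = ‖q‖
      rw [norm_qm, hy, mul_one]⟩ rfl

theorem qmIso_apply (y : E3) (hy : ‖y‖ = 1) (q : E4) : qmIso y hy q = qm q y := rfl

/-- Invariance of the standard Gaussian measure of `ℝ⁴` under right multiplication by a unit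
imaginary quaternion. -/
theorem integral_qm (y : E3) (hy : ‖y‖ = 1) (f : E4 → ℝ) :
    ∫ q, f (qm q y) ∂(stdGaussian E4) = ∫ q, f q ∂(stdGaussian E4) := by
  have h := stdGaussian_map (qmIso y hy)
  have h2 : Measure.map (⇑(qmIso y hy).toHomeomorph.toMeasurableEquiv) (stdGaussian E4)
      = stdGaussian E4 := h
  conv_rhs => rw [← h2]
  rw [integral_map_equiv]
  rfl

theorem qm_smul_right (q : E4) (t : ℝ) (y : E3) : qm q (t • y) = t • qm q y := by
  ext i
  fin_cases i <;> simp [qm] <;> ring

theorem qm_zero_right (q : E4) : qm q 0 = 0 := by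
  ext i
  fin_cases i <;> simp [qm]

end Vale.Agent.Lib.P226.H35P
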