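import Mathlib
import Vale.Agent.Lib.P226.helper35.ProjA

open MeasureTheory ProbabilityTheory

namespace Vale.Agent.Lib.P226.H35P

theorem continuous_qm : Continuous (fun p : E4 × E3 => qm p.1 p.2) := by
  unfold qm
  fun_prop

theorem integrable_norm4 : Integrable (fun q : E4 => ‖q‖) (stdGaussian E4) :=
  (IsGaussian.integrable_id (μ := stdGaussian E4)).norm

theorem integrable_norm3 : Integrable (fun y : E3 => ‖y‖) (stdGaussian E3) :=
  (IsGaussian.integrable_id (μ := stdGaussian E3)).norm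

/-- A measurable function on `ℝ⁴` bounded by a multiple of the norm is integrable for the
standard Gaussian measure. -/
theorem integrable_of_bound (f : E4 → ℝ) (hm : Measurable f) (C : ℝ)
    (hb : ∀ q, |f q| ≤ C * ‖q‖) : Integrable f (stdGaussian E4) := by
  refine Integrable.mono' (integrable_norm4.const_mul C) hm.aestronglyMeasurable ?_
  filter_upwards with q
  rw [Real.norm_eq_abs]
  exact hb q

theorem integrable_hsup_qm {m : ℕ} (z : Fin (m + 1) → E4) :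
    Integrable (Function.uncurry (fun (q : E4) (y : E3) => hsup z (qm q y)))
      ((stdGaussian E4).prod (stdGaussian E3)) := by
  have h3 : Integrable (fun p : E4 × E3 => (∑ i, ‖z i‖) * (‖p.1‖ * ‖p.2‖))
      ((stdGaussian E4).prod (stdGaussian E3)) :=
    (integrable_norm4.mul_prod integrable_norm3).const_mul _
  refine Integrable.mono' h3 ?_ ?_
  · exact ((continuous_hsup z).comp continuous_qm).aestronglyMeasurable
  · filter_upwards with p
    rw [Real.norm_eq_abs]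
    show |hsup z (qm p.1 p.2)| ≤ _
    calc |hsup z (qm p.1 p.2)| ≤ (∑ i, ‖z i‖) * ‖qm p.1 p.2‖ := abs_hsup_le _ _
      _ = (∑ i, ‖z i‖) * (‖p.1‖ * ‖p.2‖) := by rw [norm_qm]

theorem integral_hsup_qm_left {m : ℕ} (z : Fin (m + 1) → E4) (y : E3) :
    ∫ q, hsup z (qm q y) ∂(stdGaussian E4) = ‖y‖ * ∫ q, hsup z q ∂(stdGaussian E4) := by
  by_cases hy : y = 0
  · subst hy
    simp [qm_zero_right, hsup_zero]
  · have hn : ‖y‖ ≠ 0 := norm_ne_zero_iff.2 hy
    have hu1 : ‖(‖y‖⁻¹ • y : E3)‖ = 1 := by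
      rw [norm_smul, norm_inv, norm_norm, inv_mul_cancel₀ hn]
    have hyu : ‖y‖ • (‖y‖⁻¹ • y : E3) = y := by
      rw [smul_smul, mul_inv_cancel₀ hn, one_smul]
    have h : ∀ q, hsup z (qm q y) = ‖y‖ * hsup z (qm q (‖y‖⁻¹ • y)) := by
      intro q
      calc hsup z (qm q y) = hsup z (qm q (‖y‖ • (‖y‖⁻¹ • y : E3))) := by rw [hyu]
        _ = hsup z (‖y‖ • qm q (‖y‖⁻¹ • y)) := by rw [qm_smul_right]
        _ = ‖y‖ * hsup z (qm q (‖y‖⁻¹ • y)) := hsup_smul z _ (norm_nonneg _) _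
    simp_rw [h]
    rw [integral_const_mul, integral_qm _ hu1]

theorem swap_identity {m : ℕ} (z : Fin (m + 1) → E4) :
    ∫ q, (∫ y, hsup z (qm q y) ∂(stdGaussian E3)) ∂(stdGaussian E4)
      = (∫ y, ‖y‖ ∂(stdGaussian E3)) * ∫ q, hsup z q ∂(stdGaussian E4) := by
  rw [integral_integral_swap (integrable_hsup_qm z)]
  simp_rw [integral_hsup_qm_left]
  rw [integral_mul_const]

theorem hsup_qm {m : ℕ} (z : Fin (m + 1) → E4) (q : E4) (y : E3) :
    hsup z (qm q y) = hsup (fun i => qa q (z i)) y := by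
  unfold hsup
  refine Finset.sup'_congr _ rfl (fun i _ => ?_)
  rw [inner_qm]

theorem inner_sq_le (q z : E4) : inner ℝ q z ^ 2 ≤ ‖q‖ ^ 2 * ‖z‖ ^ 2 := by
  have h := abs_real_inner_le_norm q z
  have h2 : |inner ℝ q z| ^ 2 ≤ (‖q‖ * ‖z‖) ^ 2 := pow_le_pow_left₀ (abs_nonneg _) h 2
  rw [sq_abs] at h2
  linarith [mul_pow ‖q‖ ‖z‖ 2]

theorem sq_div_norm_le (a : ℝ) (q z : E4) (ha0 : 0 ≤ a) (ha : a ≤ ‖q‖ ^ 2 * ‖z‖ ^ 2) :
    |a / ‖q‖| ≤ ‖z‖ ^ 2 * ‖q‖ := by
  rw [abs_div, abs_norm, abs_of_nonneg ha0]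
  by_cases hq : q = 0
  · subst hq
    simp
  · have hq' : 0 < ‖q‖ := norm_pos_iff.2 hq
    rw [div_le_iff₀ hq']
    nlinarith

theorem integrable_sq_div (z : E4) :
    Integrable (fun q : E4 => inner ℝ q z ^ 2 / ‖q‖) (stdGaussian E4) :=
  integrable_of_bound _ (by fun_prop) (‖z‖ ^ 2)
    (fun q => sq_div_norm_le _ q z (sq_nonneg _) (inner_sq_le q z))

theorem norm_qa_sq_le (q z : E4) : ‖qa q z‖ ^ 2 ≤ ‖q‖ ^ 2 * ‖z‖ ^ 2 := by
  rw [norm_qa_sq]
  linarith [sq_nonneg (inner ℝ q z)]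

theorem integrable_norm_qa_sq_div (z : E4) :
    Integrable (fun q : E4 => ‖qa q z‖ ^ 2 / ‖q‖) (stdGaussian E4) := by
  refine integrable_of_bound _ ?_ (‖z‖ ^ 2)
    (fun q => sq_div_norm_le _ q z (sq_nonneg _) (norm_qa_sq_le q z))
  unfold qa
  fun_prop

theorem coord_qa (q z : E4) (l : Fin 3) :
    (qa q z) l = inner ℝ (qm q (EuclideanSpace.single l (1 : ℝ))) z := by
  rw [inner_qm]
  simp [EuclideanSpace.inner_single_left]

theorem integral_sq_coord (z : E4) (l : Fin 3) :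
    ∫ q, ((qa q z) l) ^ 2 / ‖q‖ ∂(stdGaussian E4)
      = ∫ q, inner ℝ q z ^ 2 / ‖q‖ ∂(stdGaussian E4) := by
  have h1 : ‖(EuclideanSpace.single l (1 : ℝ) : E3)‖ = 1 := by simp
  have h := integral_qm (EuclideanSpace.single l (1 : ℝ)) h1 (fun q => inner ℝ q z ^ 2 / ‖q‖)
  rw [← h]
  refine integral_congr_ae (Filter.Eventually.of_forall fun q => ?_)
  show ((qa q z) l) ^ 2 / ‖q‖ = inner ℝ (qm q (EuclideanSpace.single l (1 : ℝ))) z ^ 2
    / ‖qm q (EuclideanSpace.single l (1 : ℝ))‖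
  rw [coord_qa, norm_qm, h1, mul_one]

theorem integrable_sq_coord (z : E4) (l : Fin 3) :
    Integrable (fun q : E4 => ((qa q z) l) ^ 2 / ‖q‖) (stdGaussian E4) := by
  refine integrable_of_bound _ ?_ (‖z‖ ^ 2) (fun q => sq_div_norm_le _ q z (sq_nonneg _) ?_)
  · have hc : Continuous (fun q : E4 => (qa q z) l) := by
      simp_rw [coord_qa]
      have := continuous_qm.comp (Continuous.prodMk continuous_id
        (continuous_const (y := (EuclideanSpace.single l (1 : ℝ) : E3))))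
      fun_prop
    fun_prop
  · calc ((qa q z) l) ^ 2 ≤ ‖qa q z‖ ^ 2 := by
          rw [norm_sq3]
          fin_cases l <;> simp <;> nlinarith [sq_nonneg ((qa q z) 0), sq_nonneg ((qa q z) 1),
            sq_nonneg ((qa q z) 2)]
      _ ≤ ‖q‖ ^ 2 * ‖z‖ ^ 2 := norm_qa_sq_le q z

/-- The key second-moment identity: `E[|qa q z|² / |q|] = (3/4) |z|² E|q|`. -/
theorem integral_norm_qa_sq_div (z : E4) :
    ∫ q, ‖qa q z‖ ^ 2 / ‖q‖ ∂(stdGaussian E4)
      = 3 / 4 * ‖z‖ ^ 2 * ∫ q, ‖q‖ ∂(stdGaussian E4) := by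
  have e1 : ∫ q, ‖qa q z‖ ^ 2 / ‖q‖ ∂(stdGaussian E4)
      = 3 * ∫ q, inner ℝ q z ^ 2 / ‖q‖ ∂(stdGaussian E4) := by
    have h : ∀ q : E4, ‖qa q z‖ ^ 2 / ‖q‖
        = (qa q z) 0 ^ 2 / ‖q‖ + (qa q z) 1 ^ 2 / ‖q‖ + (qa q z) 2 ^ 2 / ‖q‖ := by
      intro q
      rw [norm_sq3]
      ring
    simp_rw [h]
    have hadd : Integrable (fun q : E4 => (qa q z) 0 ^ 2 / ‖q‖ + (qa q z) 1 ^ 2 / ‖q‖)
        (stdGaussian E4) := (integrable_sq_coord z 0).add (integrable_sq_coord z 1)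
    rw [integral_add hadd (integrable_sq_coord z 2),
      integral_add (integrable_sq_coord z 0) (integrable_sq_coord z 1),
      integral_sq_coord, integral_sq_coord, integral_sq_coord]
    ring
  have e2 : ∫ q, ‖qa q z‖ ^ 2 / ‖q‖ ∂(stdGaussian E4)
      = ‖z‖ ^ 2 * ∫ q, ‖q‖ ∂(stdGaussian E4) - ∫ q, inner ℝ q z ^ 2 / ‖q‖ ∂(stdGaussian E4) := by
    have h : ∀ q : E4, ‖qa q z‖ ^ 2 / ‖q‖ = ‖z‖ ^ 2 * ‖q‖ - inner ℝ q z ^ 2 / ‖q‖ := by
      intro q
      rw [norm_qa_sq]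
      by_cases hq : q = 0
      · subst hq
        simp
      · have := norm_ne_zero_iff.2 hq
        field_simp
    simp_rw [h]
    rw [integral_sub (integrable_norm4.const_mul _) (integrable_sq_div z), integral_const_mul]
  linarith

end Vale.Agent.Lib.P226.H35P
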