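import Mathlib
import Vale.Agent.Lib.P226.helper35.ProjB
import Vale.Agent.Lib.P226.helper77.Chi
import Vale.Agent.Lib.P226.helper18.VarBound
import Vale.Agent.Lib.P226.helper5.Voronoi

open MeasureTheory ProbabilityTheory

namespace Vale.Agent.Lib.P226.H35P

theorem sum_norm_qa_sq_le {m : ℕ} (z : Fin (m + 1) → E4) (q : E4) :
    ∑ i, ‖qa q (z i)‖ ^ 2 ≤ ‖q‖ ^ 2 * ∑ i, ‖z i‖ ^ 2 := by
  rw [Finset.mul_sum]
  exact Finset.sum_le_sum (fun i _ => norm_qa_sq_le q (z i))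

theorem measurable_sqrt_sum {m : ℕ} (z : Fin (m + 1) → E4) :
    Measurable (fun q : E4 => Real.sqrt (∑ i, ‖qa q (z i)‖ ^ 2)) := by
  simp_rw [norm_qa_sq]
  fun_prop

theorem integrable_sqrt_sum {m : ℕ} (z : Fin (m + 1) → E4) :
    Integrable (fun q : E4 => Real.sqrt (∑ i, ‖qa q (z i)‖ ^ 2)) (stdGaussian E4) := by
  refine integrable_of_bound _ (measurable_sqrt_sum z) (Real.sqrt (∑ i, ‖z i‖ ^ 2)) (fun q => ?_)
  rw [abs_of_nonneg (Real.sqrt_nonneg _)]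
  calc Real.sqrt (∑ i, ‖qa q (z i)‖ ^ 2) ≤ Real.sqrt (‖q‖ ^ 2 * ∑ i, ‖z i‖ ^ 2) :=
        Real.sqrt_le_sqrt (sum_norm_qa_sq_le z q)
    _ = Real.sqrt (∑ i, ‖z i‖ ^ 2) * ‖q‖ := by
        rw [Real.sqrt_mul (sq_nonneg _), Real.sqrt_sq (norm_nonneg _), mul_comm]

theorem amgm_aux (lam a S : ℝ) (hlam : 0 < lam) (ha : 0 < a) (hS : 0 ≤ S) :
    Real.sqrt S ≤ lam / 2 * a + 1 / (2 * lam) * (S / a) := by
  have hs2 : Real.sqrt S ^ 2 = S := Real.sq_sqrt hS
  have hrw : lam / 2 * a + 1 / (2 * lam) * (S / a) = (lam ^ 2 * a ^ 2 + S) / (2 * lam * a) := by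
    field_simp
  rw [hrw, le_div_iff₀ (by positivity)]
  nlinarith [sq_nonneg (lam * a - Real.sqrt S)]

/-- `E sqrt(S(q)) ≤ sqrt(3F/4) E|q|`, where `S(q) = ∑ |qa q z_i|²` and `F = ∑ |z_i|²`. -/
theorem integral_sqrt_le {m : ℕ} (z : Fin (m + 1) → E4) (hF : 0 < ∑ i, ‖z i‖ ^ 2) :
    ∫ q, Real.sqrt (∑ i, ‖qa q (z i)‖ ^ 2) ∂(stdGaussian E4)
      ≤ Real.sqrt (3 / 4 * ∑ i, ‖z i‖ ^ 2) * ∫ q, ‖q‖ ∂(stdGaussian E4) := by
  set F := ∑ i, ‖z i‖ ^ 2 with hFdef
  set lam := Real.sqrt (3 / 4 * F) with hlamdef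
  have hlam : 0 < lam := Real.sqrt_pos.2 (by positivity)
  have hlam2 : lam ^ 2 = 3 / 4 * F := Real.sq_sqrt (by positivity)
  have hpt : ∀ q : E4, Real.sqrt (∑ i, ‖qa q (z i)‖ ^ 2)
      ≤ lam / 2 * ‖q‖ + 1 / (2 * lam) * ∑ i, ‖qa q (z i)‖ ^ 2 / ‖q‖ := by
    intro q
    have hS : 0 ≤ ∑ i, ‖qa q (z i)‖ ^ 2 := Finset.sum_nonneg (fun i _ => sq_nonneg _)
    by_cases hq : q = 0
    · have h0 : ∑ i, ‖qa q (z i)‖ ^ 2 = 0 := by
        have := sum_norm_qa_sq_le z q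
        rw [hq, norm_zero] at this
        have h2 : ∑ i, ‖qa (0 : E4) (z i)‖ ^ 2 ≤ 0 := by simpa using this
        rw [hq]
        exact le_antisymm h2 (Finset.sum_nonneg (fun i _ => sq_nonneg _))
      rw [h0, hq]
      simp
    · have ha : 0 < ‖q‖ := norm_pos_iff.2 hq
      rw [← Finset.sum_div]
      exact amgm_aux lam ‖q‖ _ hlam ha hS
  have hint : Integrable (fun q : E4 => lam / 2 * ‖q‖
      + 1 / (2 * lam) * ∑ i, ‖qa q (z i)‖ ^ 2 / ‖q‖) (stdGaussian E4) :=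
    (integrable_norm4.const_mul _).add
      ((integrable_finsetSum _ (fun i _ => integrable_norm_qa_sq_div (z i))).const_mul _)
  calc ∫ q, Real.sqrt (∑ i, ‖qa q (z i)‖ ^ 2) ∂(stdGaussian E4)
      ≤ ∫ q, (lam / 2 * ‖q‖ + 1 / (2 * lam) * ∑ i, ‖qa q (z i)‖ ^ 2 / ‖q‖) ∂(stdGaussian E4) :=
        integral_mono_of_nonneg (Filter.Eventually.of_forall (fun q => Real.sqrt_nonneg _)) hint
          (Filter.Eventually.of_forall hpt)
    _ = lam / 2 * ∫ q, ‖q‖ ∂(stdGaussian E4)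
        + 1 / (2 * lam) * ∑ i, (3 / 4 * ‖z i‖ ^ 2 * ∫ q, ‖q‖ ∂(stdGaussian E4)) := by
        rw [integral_add (integrable_norm4.const_mul _)
          ((integrable_finsetSum _ (fun i _ => integrable_norm_qa_sq_div (z i))).const_mul _),
          integral_const_mul, integral_const_mul,
          integral_finsetSum _ (fun i _ => integrable_norm_qa_sq_div (z i))]
        simp_rw [integral_norm_qa_sq_div]
    _ = lam * ∫ q, ‖q‖ ∂(stdGaussian E4) := by
        rw [← Finset.sum_mul, ← Finset.mul_sum, ← hFdef, ← hlam2]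
        field_simp
        ring

theorem sqrt_two_pi : Real.sqrt (2 * Real.pi) = Real.pi * Real.sqrt (2 / Real.pi) := by
  have hpi := Real.pi_pos
  rw [show (2 * Real.pi) = Real.pi ^ 2 * (2 / Real.pi) by field_simp,
    Real.sqrt_mul (sq_nonneg _), Real.sqrt_sq hpi.le]

/-- Projection bound: every measurable partition of `ℝ⁴` into `n` cells has a measurable partition
of `ℝ³` into `n` cells whose sum of squared Gaussian first moments is at least the fraction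
`256 / (27 π²)` of the original sum. -/
theorem projection_exists (n : ℕ) (A : Fin n → Set E4)
    (hA : ∀ i, MeasurableSet (A i)) (hdisj : ∀ i j, i ≠ j → Disjoint (A i) (A j))
    (hcover : ⋃ i, A i = Set.univ) :
    ∃ B : Fin n → Set E3, (∀ i, MeasurableSet (B i)) ∧
      (∀ i j, i ≠ j → Disjoint (B i) (B j)) ∧ ⋃ i, B i = Set.univ ∧
      ∑ i, ‖∫ x in A i, x ∂(stdGaussian E4)‖ ^ 2
        ≤ 27 * Real.pi ^ 2 / 256 * ∑ i, ‖∫ x in B i, x ∂(stdGaussian E3)‖ ^ 2 := by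
  rcases n with _ | m
  · exfalso
    have h : (⋃ i, A i) = ∅ := Set.iUnion_of_empty A
    rw [h] at hcover
    exact Set.empty_ne_univ hcover
  have hpi := Real.pi_pos
  set z : Fin (m + 1) → E4 := fun i => ∫ x in A i, x ∂(stdGaussian E4) with hz
  set F := ∑ i, ‖z i‖ ^ 2 with hFdef
  by_contra hcon
  push Not at hcon
  have hFpos : 0 < F := by
    obtain ⟨V, hV1, hV2, hV3, -⟩ := H5.exists_partition_integral_sup_le 3 m (fun _ => 0)
    have h1 := hcon V hV1 hV2 hV3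
    have h0 : 0 ≤ 27 * Real.pi ^ 2 / 256 * ∑ i, ‖∫ x in V i, x ∂(stdGaussian E3)‖ ^ 2 := by
      positivity
    linarith
  set s := Real.sqrt (2 / Real.pi) with hs
  have hs0 : 0 < s := Real.sqrt_pos.2 (by positivity)
  have hchi3 : ∫ y, ‖y‖ ∂(stdGaussian E3) = 2 * s := H77.integral_norm_stdGaussian_three
  have hchi4 : ∫ q, ‖q‖ ∂(stdGaussian E4) = 3 * Real.pi * s / 4 := by
    rw [H77.integral_norm_stdGaussian_four, sqrt_two_pi]
    ring
  set lam := Real.sqrt (3 / 4 * F) with hlamdef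
  have hlam : 0 < lam := Real.sqrt_pos.2 (by positivity)
  have hlam2 : lam ^ 2 = 3 / 4 * F := Real.sq_sqrt (by positivity)
  set C := 32 * lam / (9 * Real.pi) with hCdef
  have hC : 0 < C := by positivity
  have hC2 : C ^ 2 = 256 * F / (27 * Real.pi ^ 2) := by
    rw [hCdef, div_pow, mul_pow, mul_pow, hlam2]
    field_simp
    ring
  -- pointwise bounds
  have hpt : ∀ q : E4,
      (∫ y, hsup z (qm q y) ∂(stdGaussian E3)) ≤ C * Real.sqrt (∑ i, ‖qa q (z i)‖ ^ 2) ∧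
      (0 < ∑ i, ‖qa q (z i)‖ ^ 2 →
        (∫ y, hsup z (qm q y) ∂(stdGaussian E3)) < C * Real.sqrt (∑ i, ‖qa q (z i)‖ ^ 2)) := by
    intro q
    obtain ⟨V, hV1, hV2, hV3, hV4⟩ :=
      H5.exists_partition_integral_sup_le 3 m (fun i => qa q (z i))
    have hlt := hcon V hV1 hV2 hV3
    have hsq : Real.sqrt (∑ i, ‖∫ x in V i, x ∂(stdGaussian E3)‖ ^ 2) < C := by
      rw [Real.sqrt_lt' hC, hC2, lt_div_iff₀ (by positivity)]
      have h256 : (0 : ℝ) < 256 := by norm_num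
      have := mul_lt_mul_of_pos_right hlt h256
      linarith
    have hu : (∫ y, hsup z (qm q y) ∂(stdGaussian E3))
        ≤ Real.sqrt (∑ i, ‖∫ x in V i, x ∂(stdGaussian E3)‖ ^ 2)
          * Real.sqrt (∑ i, ‖qa q (z i)‖ ^ 2) := by
      simp_rw [hsup_qm]
      exact hV4
    constructor
    · exact hu.trans (mul_le_mul_of_nonneg_right hsq.le (Real.sqrt_nonneg _))
    · intro hSpos
      exact hu.trans_lt (mul_lt_mul_of_pos_right hsq (Real.sqrt_pos.2 hSpos))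
  have hu_int : Integrable (fun q : E4 => ∫ y, hsup z (qm q y) ∂(stdGaussian E3))
      (stdGaussian E4) := (integrable_hsup_qm z).integral_prod_left
  have hS_int := integrable_sqrt_sum z
  have h1 : 2 * s * F ≤ ∫ q, (∫ y, hsup z (qm q y) ∂(stdGaussian E3)) ∂(stdGaussian E4) := by
    rw [swap_identity, hchi3]
    exact mul_le_mul_of_nonneg_left (H18.sum_sq_le_integral_sup 4 m A hA hdisj hcover)
      (by positivity)
  have h2 : ∫ q, Real.sqrt (∑ i, ‖qa q (z i)‖ ^ 2) ∂(stdGaussian E4)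
      ≤ lam * (3 * Real.pi * s / 4) := by
    rw [← hchi4]
    exact integral_sqrt_le z hFpos
  have hClam : C * (lam * (3 * Real.pi * s / 4)) = 2 * s * F := by
    rw [hCdef]
    field_simp
    rw [hlam2]
    ring
  have hw_nonneg : ∀ q : E4, 0 ≤ C * Real.sqrt (∑ i, ‖qa q (z i)‖ ^ 2)
      - ∫ y, hsup z (qm q y) ∂(stdGaussian E3) := fun q => sub_nonneg.2 (hpt q).1
  have hw_int : Integrable (fun q : E4 => C * Real.sqrt (∑ i, ‖qa q (z i)‖ ^ 2)
      - ∫ y, hsup z (qm q y) ∂(stdGaussian E3)) (stdGaussian E4) :=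
    (hS_int.const_mul C).sub hu_int
  have hw_le : ∫ q, (C * Real.sqrt (∑ i, ‖qa q (z i)‖ ^ 2)
      - ∫ y, hsup z (qm q y) ∂(stdGaussian E3)) ∂(stdGaussian E4) ≤ 0 := by
    rw [integral_sub (hS_int.const_mul C) hu_int, integral_const_mul]
    have := mul_le_mul_of_nonneg_left h2 hC.le
    linarith
  have hw0 : ∫ q, (C * Real.sqrt (∑ i, ‖qa q (z i)‖ ^ 2)
      - ∫ y, hsup z (qm q y) ∂(stdGaussian E3)) ∂(stdGaussian E4) = 0 :=
    le_antisymm hw_le (integral_nonneg hw_nonneg)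
  have hae := (integral_eq_zero_iff_of_nonneg hw_nonneg hw_int).1 hw0
  have hS0 : (fun q : E4 => Real.sqrt (∑ i, ‖qa q (z i)‖ ^ 2)) =ᵐ[stdGaussian E4] 0 := by
    filter_upwards [hae] with q hq
    by_contra hne
    have hSnn : 0 ≤ ∑ i, ‖qa q (z i)‖ ^ 2 := Finset.sum_nonneg (fun i _ => sq_nonneg _)
    have hSpos : 0 < ∑ i, ‖qa q (z i)‖ ^ 2 := by
      rcases hSnn.lt_or_eq with h | h
      · exact h
      · exfalso
        apply hne
        rw [← h]
        simp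
    have h3 := (hpt q).2 hSpos
    have h4 : C * Real.sqrt (∑ i, ‖qa q (z i)‖ ^ 2)
        - ∫ y, hsup z (qm q y) ∂(stdGaussian E3) = 0 := hq
    linarith
  have hint0 : ∫ q, Real.sqrt (∑ i, ‖qa q (z i)‖ ^ 2) ∂(stdGaussian E4) = 0 := by
    rw [integral_congr_ae hS0]
    simp
  have h5 : ∫ q, (∫ y, hsup z (qm q y) ∂(stdGaussian E3)) ∂(stdGaussian E4)
      ≤ C * ∫ q, Real.sqrt (∑ i, ‖qa q (z i)‖ ^ 2) ∂(stdGaussian E4) := by
    rw [← integral_const_mul]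
    exact integral_mono hu_int (hS_int.const_mul C) (fun q => (hpt q).1)
  rw [hint0, mul_zero] at h5
  have h6 : 0 < 2 * s * F := by positivity
  linarith

end Vale.Agent.Lib.P226.H35P
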