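import Mathlib
import Vale.Agent.Lib.P226.helper28.Chi

open MeasureTheory ProbabilityTheory

namespace Vale.Agent.Lib.P226.H35G

theorem volume_real_unit_ball (d : ℕ) (hd : 0 < d) :
    (volume : Measure (EuclideanSpace ℝ (Fin d))).real (Metric.ball 0 1)
      = Real.sqrt Real.pi ^ d / Real.Gamma ((d : ℝ) / 2 + 1) := by
  have : Nonempty (Fin d) := Fin.pos_iff_nonempty.1 hd
  have hG : 0 < Real.Gamma ((d : ℝ) / 2 + 1) := Real.Gamma_pos_of_pos (by positivity)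
  rw [Measure.real, EuclideanSpace.volume_ball]
  simp only [ENNReal.ofReal_one, one_pow, one_mul, Fintype.card_fin]
  rw [ENNReal.toReal_ofReal (by positivity)]

/-- Closed form of the mean norm of a standard Gaussian vector of `ℝ^d`, `d ≥ 1`. -/
theorem integral_norm_stdGaussian_gamma (d : ℕ) (hd : 0 < d) :
    ∫ y, ‖y‖ ∂(stdGaussian (EuclideanSpace ℝ (Fin d)))
      = Real.sqrt 2 * Real.Gamma (((d : ℝ) + 1) / 2) / Real.Gamma ((d : ℝ) / 2) := by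
  have hpi := Real.pi_pos
  have hd' : (0 : ℝ) < d := by exact_mod_cast hd
  have hG2 : 0 < Real.Gamma ((d : ℝ) / 2) := Real.Gamma_pos_of_pos (by positivity)
  rw [H28.integral_norm_stdGaussian_eq d hd, volume_real_unit_ball d hd,
    H28.integral_rpow_mul_exp_half_sq (d : ℝ) (by linarith),
    Real.Gamma_add_one (by positivity : (d : ℝ) / 2 ≠ 0)]
  have hP : Real.sqrt Real.pi ^ d * Real.pi ^ (-(d : ℝ) / 2) = 1 := by
    rw [Real.sqrt_eq_rpow, ← Real.rpow_natCast, ← Real.rpow_mul hpi.le, ← Real.rpow_add hpi]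
    have : (1 / 2 : ℝ) * (d : ℝ) + -(d : ℝ) / 2 = 0 := by ring
    rw [this, Real.rpow_zero]
  have h2 : (2 * Real.pi) ^ (-(d : ℝ) / 2) = (2 : ℝ) ^ (-(d : ℝ) / 2) * Real.pi ^ (-(d : ℝ) / 2) :=
    Real.mul_rpow (by norm_num) hpi.le
  have hAB : (2 : ℝ) ^ (-(d : ℝ) / 2) * (1 / 2 : ℝ) ^ (-((d : ℝ) + 1) / 2) = Real.sqrt 2 := by
    rw [one_div, Real.inv_rpow (by norm_num), ← Real.rpow_neg (by norm_num),
      ← Real.rpow_add (by norm_num), Real.sqrt_eq_rpow]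
    congr 1
    ring
  rw [h2]
  have key : (d : ℝ) * (Real.sqrt Real.pi ^ d / ((d : ℝ) / 2 * Real.Gamma ((d : ℝ) / 2)) *
      ((2 : ℝ) ^ (-(d : ℝ) / 2) * Real.pi ^ (-(d : ℝ) / 2) *
        ((1 / 2 : ℝ) ^ (-((d : ℝ) + 1) / 2) * (1 / 2) * Real.Gamma (((d : ℝ) + 1) / 2))))
      = (Real.sqrt Real.pi ^ d * Real.pi ^ (-(d : ℝ) / 2))
        * ((2 : ℝ) ^ (-(d : ℝ) / 2) * (1 / 2 : ℝ) ^ (-((d : ℝ) + 1) / 2))
        * Real.Gamma (((d : ℝ) + 1) / 2) / Real.Gamma ((d : ℝ) / 2) := by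
    field_simp
  rw [key, hP, hAB, one_mul]

theorem integral_norm_stdGaussian_pos (d : ℕ) (hd : 0 < d) :
    0 < ∫ y, ‖y‖ ∂(stdGaussian (EuclideanSpace ℝ (Fin d))) := by
  have hd' : (0 : ℝ) < d := by exact_mod_cast hd
  rw [integral_norm_stdGaussian_gamma d hd]
  have h1 : 0 < Real.Gamma (((d : ℝ) + 1) / 2) := Real.Gamma_pos_of_pos (by positivity)
  have h2 : 0 < Real.Gamma ((d : ℝ) / 2) := Real.Gamma_pos_of_pos (by positivity)
  positivity

end Vale.Agent.Lib.P226.H35G
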