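import Mathlib

namespace Vale.Agent.Lib.P226.H35

/-- In a real inner product space of dimension `D`, among `D + 2` (or more) vectors two have a
nonnegative inner product (at most `D + 1` vectors have pairwise negative inner products). -/
theorem exists_nonneg_inner {V : Type*} [NormedAddCommGroup V] [InnerProductSpace ℝ V]
    [FiniteDimensional ℝ V] {m : ℕ} (z : Fin m → V) (hm : Module.finrank ℝ V + 2 ≤ m) :
    ∃ i j : Fin m, i ≠ j ∧ 0 ≤ inner ℝ (z i) (z j) := by
  by_contra hcon
  have hneg : ∀ i j : Fin m, i ≠ j → inner ℝ (z i) (z j) < 0 := by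
    intro i j hij
    by_contra h
    exact hcon ⟨i, j, hij, not_lt.1 h⟩
  obtain ⟨n, hn⟩ : ∃ n : ℕ, n = Module.finrank ℝ V := ⟨_, rfl⟩
  rw [← hn] at hm
  -- the first `n + 1` vectors and one more
  obtain ⟨z', hz'⟩ : ∃ z' : Fin (n + 1) → V, ∀ a : Fin (n + 1), z' a = z ⟨a.val, by omega⟩ :=
    ⟨fun a => z ⟨a.val, by omega⟩, fun _ => rfl⟩
  obtain ⟨zl, hzl⟩ : ∃ zl : V, zl = z ⟨n + 1, by omega⟩ := ⟨_, rfl⟩
  have hneg' : ∀ a b : Fin (n + 1), a ≠ b → inner ℝ (z' a) (z' b) < 0 := by
    intro a b hab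
    rw [hz' a, hz' b]
    apply hneg
    intro h
    apply hab
    have h2 := congrArg Fin.val h
    exact Fin.ext h2
  have hnegl : ∀ a : Fin (n + 1), inner ℝ (z' a) zl < 0 := by
    intro a
    rw [hz' a, hzl]
    apply hneg
    intro h
    have h2 := congrArg Fin.val h
    have h3 : a.val = n + 1 := h2
    have h4 := a.isLt
    omega
  have hli : ¬ LinearIndependent ℝ z' := by
    intro h
    have h2 := h.fintype_card_le_finrank
    rw [Fintype.card_fin, ← hn] at h2
    omega
  obtain ⟨g, hg0, a0, ha0⟩ := Fintype.not_linearIndependent_iff.1 hli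
  obtain ⟨p, hp⟩ : ∃ p : Fin (n + 1) → ℝ, ∀ a, p a = max (g a) 0 := ⟨_, fun _ => rfl⟩
  obtain ⟨q, hq⟩ : ∃ q : Fin (n + 1) → ℝ, ∀ a, q a = max (-g a) 0 := ⟨_, fun _ => rfl⟩
  have hp0 : ∀ a, 0 ≤ p a := fun a => by rw [hp a]; exact le_max_right _ _
  have hq0 : ∀ a, 0 ≤ q a := fun a => by rw [hq a]; exact le_max_right _ _
  have hpq : ∀ a, p a - q a = g a := by
    intro a
    rw [hp a, hq a]
    rcases le_total (g a) 0 with h | h
    · rw [max_eq_right h, max_eq_left (by linarith)]
      ring
    · rw [max_eq_left h, max_eq_right (by linarith)]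
      ring
  have hpqz : ∀ a, p a * q a = 0 := by
    intro a
    rw [hp a, hq a]
    rcases le_total (g a) 0 with h | h
    · rw [max_eq_right h]
      ring
    · rw [max_eq_right (by linarith : -g a ≤ 0)]
      ring
  obtain ⟨u, hu⟩ : ∃ u : V, u = ∑ a, p a • z' a := ⟨_, rfl⟩
  obtain ⟨v, hv⟩ : ∃ v : V, v = ∑ a, q a • z' a := ⟨_, rfl⟩
  have huv : u = v := by
    have h : u - v = 0 := by
      rw [hu, hv, ← Finset.sum_sub_distrib, ← hg0]
      apply Finset.sum_congr rfl
      intro a _
      rw [← sub_smul, hpq a]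
    exact sub_eq_zero.1 h
  have hinner : inner ℝ u v ≤ 0 := by
    rw [hu, hv, sum_inner]
    apply Finset.sum_nonpos
    intro a _
    rw [inner_sum]
    apply Finset.sum_nonpos
    intro b _
    rw [inner_smul_left, inner_smul_right]
    simp only [conj_trivial]
    by_cases hab : a = b
    · rw [hab]
      have h := hpqz b
      have e : p b * (q b * inner ℝ (z' b) (z' b)) = p b * q b * inner ℝ (z' b) (z' b) := by
        ring
      rw [e, h, zero_mul]
    · have h1 := hneg' a b hab
      have h2 := mul_nonneg (hp0 a) (hq0 b)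
      nlinarith [h1, h2]
  have hu0 : u = 0 := by
    apply real_inner_self_nonpos.1
    nth_rewrite 2 [huv]
    exact hinner
  have hv0 : v = 0 := huv ▸ hu0
  rcases lt_or_gt_of_ne ha0 with hlt | hgt
  · -- g a0 < 0: use v
    have h1 : inner ℝ v zl = ∑ a, q a * inner ℝ (z' a) zl := by
      rw [hv, sum_inner]
      apply Finset.sum_congr rfl
      intro a _
      rw [inner_smul_left]
      simp only [conj_trivial]
    have h2 : ∑ a, q a * inner ℝ (z' a) zl < ∑ _a : Fin (n + 1), (0 : ℝ) := by
      apply Finset.sum_lt_sum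
      · intro a _
        exact mul_nonpos_of_nonneg_of_nonpos (hq0 a) (le_of_lt (hnegl a))
      · refine ⟨a0, Finset.mem_univ _, ?_⟩
        have hq1 : 0 < q a0 := by
          rw [hq a0]
          exact lt_max_of_lt_left (by linarith)
        exact mul_neg_of_pos_of_neg hq1 (hnegl a0)
    rw [← h1, hv0, inner_zero_left] at h2
    simp at h2
  · -- 0 < g a0: use u
    have h1 : inner ℝ u zl = ∑ a, p a * inner ℝ (z' a) zl := by
      rw [hu, sum_inner]
      apply Finset.sum_congr rfl
      intro a _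
      rw [inner_smul_left]
      simp only [conj_trivial]
    have h2 : ∑ a, p a * inner ℝ (z' a) zl < ∑ _a : Fin (n + 1), (0 : ℝ) := by
      apply Finset.sum_lt_sum
      · intro a _
        exact mul_nonpos_of_nonneg_of_nonpos (hp0 a) (le_of_lt (hnegl a))
      · refine ⟨a0, Finset.mem_univ _, ?_⟩
        have hp1 : 0 < p a0 := by
          rw [hp a0]
          exact lt_max_of_lt_left hgt
        exact mul_neg_of_pos_of_neg hp1 (hnegl a0)
    rw [← h1, hu0, inner_zero_left] at h2
    simp at h2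

end Vale.Agent.Lib.P226.H35
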