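import Mathlib
import Vale.Agent.Lib.P226.Antipodal

namespace Vale.Agent.Lib.P226.H35

open MeasureTheory ProbabilityTheory Set

section Alg

variable {V : Type*} [NormedAddCommGroup V] [InnerProductSpace ℝ V]

/-- Summing over the indices different from two given distinct ones. -/
theorem sum_erase_two {n : ℕ} (f : Fin n → ℝ) (i j : Fin n) (hij : i ≠ j) :
    ∑ l, (if l ≠ i ∧ l ≠ j then f l else 0) = ∑ l, f l - f i - f j := by
  have h : ∀ l, (if l ≠ i ∧ l ≠ j then f l else 0)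
      = f l - (if l = i then f l else 0) - (if l = j then f l else 0) := by
    intro l
    by_cases h1 : l = i
    · simp [h1, hij]
    · by_cases h2 : l = j
      · simp [h2, Ne.symm hij]
      · simp [h1, h2]
  rw [Finset.sum_congr rfl (fun l _ => h l), Finset.sum_sub_distrib, Finset.sum_sub_distrib,
    Finset.sum_ite_eq', Finset.sum_ite_eq']
  simp

/-- Summing over the ordered pairs of distinct indices. -/
theorem sum_off_diag {n : ℕ} (g : Fin n → Fin n → ℝ) :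
    ∑ i, ∑ j, (if i ≠ j then g i j else 0) = ∑ i, ∑ j, g i j - ∑ i, g i i := by
  rw [← Finset.sum_sub_distrib]
  apply Finset.sum_congr rfl
  intro i _
  have h : ∀ j, (if i ≠ j then g i j else 0) = g i j - (if j = i then g i j else 0) := by
    intro j
    by_cases h1 : j = i
    · simp [h1]
    · have h2 : i ≠ j := fun h => h1 h.symm
      simp [h1, h2]
  rw [Finset.sum_congr rfl (fun j _ => h j), Finset.sum_sub_distrib, Finset.sum_ite_eq']
  simp

/-- Algebraic core of the regrouping reduction. -/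
theorem regroup_alg {n : ℕ} (hn : 3 ≤ n) (w : Fin n → Fin n → V) (anti : ∀ i j, w j i = -w i j)
    (C : ℝ)
    (H : ∀ i j l : Fin n, i ≠ j → l ≠ i → l ≠ j →
      (∑ m, ‖∑ a, w m a‖ ^ 2) - ‖∑ a, w i a‖ ^ 2 - ‖∑ a, w j a‖ ^ 2 - ‖∑ a, w l a‖ ^ 2
        + ‖(∑ a, w i a) + (∑ a, w j a) - w j i‖ ^ 2 + ‖(∑ a, w l a) + w j i‖ ^ 2 ≤ C) :
    ((n : ℝ) ^ 2 * ((n : ℝ) - 1) - 2 * (n : ℝ) + 4) * ∑ m, ‖∑ a, w m a‖ ^ 2
      ≤ (n : ℝ) ^ 2 * ((n : ℝ) - 1) * C := by
  have hLap := Vale.Agent.Lib.P226.sum_sq_row_le_antisymm w anti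
  obtain ⟨z, hz⟩ : ∃ z : Fin n → V, ∀ i, z i = ∑ a, w i a := ⟨fun i => ∑ a, w i a, fun _ => rfl⟩
  simp only [← hz] at H hLap ⊢
  obtain ⟨F, hF⟩ : ∃ F : ℝ, F = ∑ m, ‖z m‖ ^ 2 := ⟨_, rfl⟩
  obtain ⟨Q, hQ⟩ : ∃ Q : ℝ, Q = ∑ i, ∑ j, ‖w i j‖ ^ 2 := ⟨_, rfl⟩
  rw [← hF] at H ⊢
  rw [← hF, ← hQ] at hLap
  have hii : ∀ i, w i i = 0 := by
    intro i
    have h := anti i i
    have h2 : (2 : ℝ) • w i i = 0 := by
      rw [two_smul]
      nth_rewrite 1 [h]
      exact neg_add_cancel _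
    exact (smul_eq_zero.1 h2).resolve_left (by norm_num)
  have hcol : ∀ j, ∑ i, w i j = -z j := by
    intro j
    rw [hz j, ← Finset.sum_neg_distrib]
    exact Finset.sum_congr rfl (fun i _ => anti j i)
  have hsum : ∑ i, z i = 0 := by
    have h1 : ∑ i, z i = ∑ j, ∑ i, w i j := by
      rw [Finset.sum_comm]
      exact Finset.sum_congr rfl (fun i _ => hz i)
    have h2 : ∑ j, ∑ i, w i j = -∑ j, z j := by
      rw [← Finset.sum_neg_distrib]
      exact Finset.sum_congr rfl (fun j _ => hcol j)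
    have h3 : ∑ i, z i = -∑ i, z i := h1.trans h2
    have h4 : (2 : ℝ) • ∑ i, z i = 0 := by
      rw [two_smul]
      nth_rewrite 1 [h3]
      exact neg_add_cancel _
    exact (smul_eq_zero.1 h4).resolve_left (by norm_num)
  have hZZ : ∑ i, ∑ j, inner ℝ (z i) (z j) = 0 := by
    have h : ∀ i, ∑ j, inner ℝ (z i) (z j) = 0 := by
      intro i
      rw [← inner_sum, hsum, inner_zero_right]
    rw [Finset.sum_congr rfl (fun i _ => h i)]
    simp
  have hZZd : ∑ i, inner ℝ (z i) (z i) = F := by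
    rw [hF]
    exact Finset.sum_congr rfl (fun i _ => real_inner_self_eq_norm_sq (z i))
  have hW : ∑ i, ∑ j, ‖w j i‖ ^ 2 = Q := by
    rw [hQ, Finset.sum_comm]
  have hZW1 : ∑ i, ∑ j, inner ℝ (z i) (w j i) = -F := by
    have h : ∀ i, ∑ j, inner ℝ (z i) (w j i) = -inner ℝ (z i) (z i) := by
      intro i
      rw [← inner_sum, hcol i, inner_neg_right]
    rw [Finset.sum_congr rfl (fun i _ => h i), Finset.sum_neg_distrib, hZZd]
  have hZW2 : ∑ i, ∑ j, inner ℝ (z j) (w j i) = F := by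
    rw [Finset.sum_comm]
    have h : ∀ j, ∑ i, inner ℝ (z j) (w j i) = inner ℝ (z j) (z j) := by
      intro j
      rw [← inner_sum, ← hz j]
    rw [Finset.sum_congr rfl (fun j _ => h j), hZZd]
  have hZWl : ∀ i j : Fin n, ∑ l, inner ℝ (z l) (w j i) = 0 := by
    intro i j
    rw [← sum_inner, hsum, inner_zero_left]
  have HT : ∀ i j l : Fin n, i ≠ j → l ≠ i → l ≠ j →
      F + 2 * inner ℝ (z i) (z j) + 2 * ‖w j i‖ ^ 2 - 2 * inner ℝ (z i) (w j i)
        - 2 * inner ℝ (z j) (w j i) + 2 * inner ℝ (z l) (w j i) ≤ C := by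
    intro i j l hij hli hlj
    have h := H i j l hij hli hlj
    rw [norm_sub_sq_real, norm_add_sq_real, norm_add_sq_real, inner_add_left] at h
    linarith
  have hn3 : (3 : ℝ) ≤ (n : ℝ) := by exact_mod_cast hn
  -- stage 1: sum over the third index
  have S1 : ∀ i j : Fin n, i ≠ j →
      ((n : ℝ) - 2) * F + 2 * ((n : ℝ) - 2) * inner ℝ (z i) (z j)
        + 2 * ((n : ℝ) - 2) * ‖w j i‖ ^ 2
        - 2 * ((n : ℝ) - 1) * inner ℝ (z i) (w j i)
        - 2 * ((n : ℝ) - 1) * inner ℝ (z j) (w j i) ≤ ((n : ℝ) - 2) * C := by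
    intro i j hij
    obtain ⟨K, hK⟩ : ∃ K : ℝ, K = F + 2 * inner ℝ (z i) (z j) + 2 * ‖w j i‖ ^ 2
        - 2 * inner ℝ (z i) (w j i) - 2 * inner ℝ (z j) (w j i) := ⟨_, rfl⟩
    have hle : ∑ l, (if l ≠ i ∧ l ≠ j then (K + 2 * inner ℝ (z l) (w j i)) else 0)
        ≤ ∑ l : Fin n, (if l ≠ i ∧ l ≠ j then C else 0) := by
      apply Finset.sum_le_sum
      intro l _
      by_cases hl : l ≠ i ∧ l ≠ j
      · rw [if_pos hl, if_pos hl, hK]
        exact HT i j l hij hl.1 hl.2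
      · rw [if_neg hl, if_neg hl]
    rw [sum_erase_two (fun l => K + 2 * inner ℝ (z l) (w j i)) i j hij,
      sum_erase_two (fun _ => C) i j hij] at hle
    have e1 : ∑ l : Fin n, (K + 2 * inner ℝ (z l) (w j i)) = (n : ℝ) * K := by
      rw [Finset.sum_add_distrib, ← Finset.mul_sum, hZWl i j]
      simp
    have e2 : ∑ _l : Fin n, C = (n : ℝ) * C := by simp
    rw [e1, e2] at hle
    have e3 : ((n : ℝ) - 2) * F + 2 * ((n : ℝ) - 2) * inner ℝ (z i) (z j)
        + 2 * ((n : ℝ) - 2) * ‖w j i‖ ^ 2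
        - 2 * ((n : ℝ) - 1) * inner ℝ (z i) (w j i)
        - 2 * ((n : ℝ) - 1) * inner ℝ (z j) (w j i)
        = (n : ℝ) * K - (K + 2 * inner ℝ (z i) (w j i)) - (K + 2 * inner ℝ (z j) (w j i)) := by
      rw [hK]
      ring
    rw [e3]
    linarith
  -- stage 2: sum over the ordered pairs of distinct indices
  have hle2 : ∑ i, ∑ j, (if i ≠ j then
        (((n : ℝ) - 2) * F + 2 * ((n : ℝ) - 2) * inner ℝ (z i) (z j)
          + 2 * ((n : ℝ) - 2) * ‖w j i‖ ^ 2
          - 2 * ((n : ℝ) - 1) * inner ℝ (z i) (w j i)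
          - 2 * ((n : ℝ) - 1) * inner ℝ (z j) (w j i)) else 0)
      ≤ ∑ i : Fin n, ∑ j : Fin n, (if i ≠ j then ((n : ℝ) - 2) * C else 0) := by
    apply Finset.sum_le_sum
    intro i _
    apply Finset.sum_le_sum
    intro j _
    by_cases hij : i ≠ j
    · rw [if_pos hij, if_pos hij]
      exact S1 i j hij
    · rw [if_neg hij, if_neg hij]
  rw [sum_off_diag, sum_off_diag] at hle2
  have d1 : ∀ i : Fin n, ‖w i i‖ ^ 2 = 0 := by
    intro i
    rw [hii i]
    simp
  have d2 : ∀ i : Fin n, inner ℝ (z i) (w i i) = 0 := by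
    intro i
    rw [hii i, inner_zero_right]
  simp only [Finset.sum_add_distrib, Finset.sum_sub_distrib, ← Finset.mul_sum, Finset.sum_const,
    Finset.card_univ, Fintype.card_fin, nsmul_eq_mul, d1, d2, hZZ, hZZd, hW, hZW1, hZW2] at hle2
  have hpos : (0 : ℝ) < (n : ℝ) - 2 := by linarith
  have hX : ((n : ℝ) ^ 2 - (n : ℝ) - 2) * F + 2 * Q ≤ ((n : ℝ) ^ 2 - (n : ℝ)) * C := by
    have h : ((n : ℝ) - 2) * (((n : ℝ) ^ 2 - (n : ℝ) - 2) * F + 2 * Q)
        ≤ ((n : ℝ) - 2) * (((n : ℝ) ^ 2 - (n : ℝ)) * C) := by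
      nlinarith [hle2]
    exact le_of_mul_le_mul_left h hpos
  have hn0 : (0 : ℝ) ≤ (n : ℝ) := by linarith
  nlinarith [mul_le_mul_of_nonneg_left hX hn0, hLap]

/-- Existence form of the algebraic core: some triple of distinct indices does at least as
well as the average. -/
theorem regroup_alg_exists {n : ℕ} (hn : 3 ≤ n) (w : Fin n → Fin n → V)
    (anti : ∀ i j, w j i = -w i j) :
    ∃ i j l : Fin n, i ≠ j ∧ l ≠ i ∧ l ≠ j ∧
      ((n : ℝ) ^ 2 * ((n : ℝ) - 1) - 2 * (n : ℝ) + 4) * ∑ m, ‖∑ a, w m a‖ ^ 2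
        ≤ (n : ℝ) ^ 2 * ((n : ℝ) - 1) *
          ((∑ m, ‖∑ a, w m a‖ ^ 2) - ‖∑ a, w i a‖ ^ 2 - ‖∑ a, w j a‖ ^ 2 - ‖∑ a, w l a‖ ^ 2
            + ‖(∑ a, w i a) + (∑ a, w j a) - w j i‖ ^ 2 + ‖(∑ a, w l a) + w j i‖ ^ 2) := by
  have hS : (Finset.univ.filter (fun t : Fin n × Fin n × Fin n =>
      t.1 ≠ t.2.1 ∧ t.2.2 ≠ t.1 ∧ t.2.2 ≠ t.2.1)).Nonempty := by
    refine ⟨(⟨0, by omega⟩, ⟨1, by omega⟩, ⟨2, by omega⟩), ?_⟩
    simp [Fin.ext_iff]
  obtain ⟨t, ht, hmax⟩ := Finset.exists_max_image _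
    (fun t : Fin n × Fin n × Fin n =>
      (∑ m, ‖∑ a, w m a‖ ^ 2) - ‖∑ a, w t.1 a‖ ^ 2 - ‖∑ a, w t.2.1 a‖ ^ 2
        - ‖∑ a, w t.2.2 a‖ ^ 2
        + ‖(∑ a, w t.1 a) + (∑ a, w t.2.1 a) - w t.2.1 t.1‖ ^ 2
        + ‖(∑ a, w t.2.2 a) + w t.2.1 t.1‖ ^ 2) hS
  rw [Finset.mem_filter] at ht
  refine ⟨t.1, t.2.1, t.2.2, ht.2.1, ht.2.2.1, ht.2.2.2, ?_⟩
  exact regroup_alg hn w anti _ (fun i j l hij hli hlj =>
    hmax (i, j, l) (by
      rw [Finset.mem_filter]
      exact ⟨Finset.mem_univ _, hij, hli, hlj⟩))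

end Alg

section Meas

variable {d : ℕ}

/-- A sum over `Fin (k + 1)` of a function that agrees with another one outside three distinct
indices. -/
theorem sum_three_exceptions {k : ℕ} (f h : Fin (k + 1) → ℝ) (i j l : Fin (k + 1)) (hij : i ≠ j)
    (hli : l ≠ i) (hlj : l ≠ j) (hfh : ∀ a, a ≠ j → a ≠ i → a ≠ l → f a = h a) :
    ∑ a, f a = ∑ a, h a + (f i - h i) + (f j - h j) + (f l - h l) := by
  have hpt : ∀ a, f a = h a + (if a = i then f a - h a else 0)
      + (if a = j then f a - h a else 0) + (if a = l then f a - h a else 0) := by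
    intro a
    by_cases h1 : a = i
    · have h2 : a ≠ j := fun hh => hij (h1.symm.trans hh)
      have h3 : a ≠ l := fun hh => hli (hh.symm.trans h1)
      rw [if_pos h1, if_neg h2, if_neg h3]
      ring
    · by_cases h2 : a = j
      · have h3 : a ≠ l := fun hh => hlj (hh.symm.trans h2)
        rw [if_neg h1, if_pos h2, if_neg h3]
        ring
      · by_cases h3 : a = l
        · rw [if_neg h1, if_neg h2, if_pos h3]
          ring
        · rw [if_neg h1, if_neg h2, if_neg h3, hfh a h2 h1 h3]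
          ring
  rw [Finset.sum_congr rfl (fun a _ => hpt a)]
  simp only [Finset.sum_add_distrib, Finset.sum_ite_eq', Finset.mem_univ, if_true]

/-- The regrouped partition: for distinct `i, j, l`, the cells `A i ∪ (A j \ -A i)`,
`A l ∪ (A j ∩ -A i)` and the other cells `A m` (`m ≠ i, j, l`) form a measurable partition
into one cell less, whose sum of squares is computed from the first moments of the old cells
and of the piece `A j ∩ -A i`. -/
theorem regroup_exists {k : ℕ} (A : Fin (k + 1) → Set (EuclideanSpace ℝ (Fin d)))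
    (hA : ∀ i, MeasurableSet (A i)) (hdisj : ∀ i j, i ≠ j → Disjoint (A i) (A j))
    (hcover : ⋃ i, A i = Set.univ) (i j l : Fin (k + 1)) (hij : i ≠ j) (hli : l ≠ i)
    (hlj : l ≠ j) :
    ∃ B : Fin k → Set (EuclideanSpace ℝ (Fin d)), (∀ m, MeasurableSet (B m)) ∧
      (∀ a b, a ≠ b → Disjoint (B a) (B b)) ∧ ⋃ m, B m = Set.univ ∧
      ∑ m, ‖∫ x in B m, x ∂(stdGaussian (EuclideanSpace ℝ (Fin d)))‖ ^ 2
        = (∑ m, ‖∫ x in A m, x ∂(stdGaussian (EuclideanSpace ℝ (Fin d)))‖ ^ 2)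
        - ‖∫ x in A i, x ∂(stdGaussian (EuclideanSpace ℝ (Fin d)))‖ ^ 2
        - ‖∫ x in A j, x ∂(stdGaussian (EuclideanSpace ℝ (Fin d)))‖ ^ 2
        - ‖∫ x in A l, x ∂(stdGaussian (EuclideanSpace ℝ (Fin d)))‖ ^ 2
        + ‖(∫ x in A i, x ∂(stdGaussian (EuclideanSpace ℝ (Fin d))))
            + (∫ x in A j, x ∂(stdGaussian (EuclideanSpace ℝ (Fin d))))
            - ∫ x in A j ∩ {x | -x ∈ A i}, x ∂(stdGaussian (EuclideanSpace ℝ (Fin d)))‖ ^ 2
        + ‖(∫ x in A l, x ∂(stdGaussian (EuclideanSpace ℝ (Fin d))))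
            + ∫ x in A j ∩ {x | -x ∈ A i}, x ∂(stdGaussian (EuclideanSpace ℝ (Fin d)))‖ ^ 2 := by
  have hint : Integrable (fun x : EuclideanSpace ℝ (Fin d) => x)
      (stdGaussian (EuclideanSpace ℝ (Fin d))) := IsGaussian.integrable_id
  obtain ⟨P, hP⟩ : ∃ P : Set (EuclideanSpace ℝ (Fin d)), P = A j ∩ {x | -x ∈ A i} := ⟨_, rfl⟩
  obtain ⟨R, hR⟩ : ∃ R : Set (EuclideanSpace ℝ (Fin d)), R = A j \ P := ⟨_, rfl⟩
  rw [← hP]
  have hPm : MeasurableSet P := by
    rw [hP]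
    exact (hA j).inter (measurable_neg (hA i))
  have hRm : MeasurableSet R := by
    rw [hR]
    exact (hA j).diff hPm
  have hPsub : P ⊆ A j := by
    rw [hP]
    exact Set.inter_subset_left
  have hRsub : R ⊆ A j := by
    rw [hR]
    exact Set.sdiff_subset
  have hPR : Disjoint P R := by
    rw [hR]
    exact Set.disjoint_sdiff_right
  -- the regrouped family, indexed by `Fin (k + 1)` with an empty cell at `j`
  obtain ⟨B', hB'⟩ : ∃ B' : Fin (k + 1) → Set (EuclideanSpace ℝ (Fin d)),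
      ∀ m, B' m = if m = j then ∅ else if m = i then A i ∪ R else if m = l then A l ∪ P
        else A m := ⟨_, fun _ => rfl⟩
  have hB'j : B' j = ∅ := by rw [hB' j, if_pos rfl]
  have hB'i : B' i = A i ∪ R := by rw [hB' i, if_neg hij, if_pos rfl]
  have hB'l : B' l = A l ∪ P := by rw [hB' l, if_neg hlj, if_neg hli, if_pos rfl]
  have hB'o : ∀ m, m ≠ j → m ≠ i → m ≠ l → B' m = A m := by
    intro m h1 h2 h3
    rw [hB' m, if_neg h1, if_neg h2, if_neg h3]
  have hmem : ∀ m, m ≠ j → ∀ x, x ∈ B' m → x ∈ A m ∨ (m = i ∧ x ∈ R) ∨ (m = l ∧ x ∈ P) := by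
    intro m hmj x hx
    by_cases hmi : m = i
    · rw [hmi, hB'i] at hx
      rcases hx with hx | hx
      · left
        rw [hmi]
        exact hx
      · right
        left
        exact ⟨hmi, hx⟩
    · by_cases hml : m = l
      · rw [hml, hB'l] at hx
        rcases hx with hx | hx
        · left
          rw [hml]
          exact hx
        · right
          right
          exact ⟨hml, hx⟩
      · rw [hB'o m hmj hmi hml] at hx
        left
        exact hx
  have hsubB : ∀ m, m ≠ j → A m ⊆ B' m := by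
    intro m hmj
    by_cases hmi : m = i
    · rw [hmi, hB'i]
      exact Set.subset_union_left
    · by_cases hml : m = l
      · rw [hml, hB'l]
        exact Set.subset_union_left
      · rw [hB'o m hmj hmi hml]
  have hB'meas : ∀ m, MeasurableSet (B' m) := by
    intro m
    by_cases hmj : m = j
    · rw [hmj, hB'j]
      exact MeasurableSet.empty
    · by_cases hmi : m = i
      · rw [hmi, hB'i]
        exact (hA i).union hRm
      · by_cases hml : m = l
        · rw [hml, hB'l]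
          exact (hA l).union hPm
        · rw [hB'o m hmj hmi hml]
          exact hA m
  have hB'disj : ∀ a b, a ≠ j → b ≠ j → a ≠ b → Disjoint (B' a) (B' b) := by
    intro a b haj hbj hab
    rw [Set.disjoint_left]
    intro x hxa hxb
    rcases hmem a haj x hxa with h1 | ⟨h1, h1'⟩ | ⟨h1, h1'⟩ <;>
      rcases hmem b hbj x hxb with h2 | ⟨h2, h2'⟩ | ⟨h2, h2'⟩
    · exact Set.disjoint_left.1 (hdisj a b hab) h1 h2
    · exact Set.disjoint_left.1 (hdisj a j haj) h1 (hRsub h2')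
    · exact Set.disjoint_left.1 (hdisj a j haj) h1 (hPsub h2')
    · exact Set.disjoint_left.1 (hdisj b j hbj) h2 (hRsub h1')
    · exact hab (h1.trans h2.symm)
    · exact Set.disjoint_left.1 hPR h2' h1'
    · exact Set.disjoint_left.1 (hdisj b j hbj) h2 (hPsub h1')
    · exact Set.disjoint_left.1 hPR h1' h2'
    · exact hab (h1.trans h2.symm)
  have hBdisj : ∀ a b : Fin k, a ≠ b →
      Disjoint (B' (j.succAbove a)) (B' (j.succAbove b)) := by
    intro a b hab
    exact hB'disj _ _ (Fin.succAbove_ne j a) (Fin.succAbove_ne j b)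
      (fun hh => hab (Fin.succAbove_right_injective hh))
  have hBcover : ⋃ m : Fin k, B' (j.succAbove m) = Set.univ := by
    rw [Set.eq_univ_iff_forall]
    intro x
    have hx : x ∈ ⋃ a, A a := by
      rw [hcover]
      exact Set.mem_univ x
    obtain ⟨a, ha⟩ := Set.mem_iUnion.1 hx
    rw [Set.mem_iUnion]
    by_cases haj : a = j
    · rw [haj] at ha
      by_cases hxP : x ∈ P
      · obtain ⟨m, hm⟩ := Fin.exists_succAbove_eq hlj
        refine ⟨m, ?_⟩
        rw [hm, hB'l]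
        exact Or.inr hxP
      · obtain ⟨m, hm⟩ := Fin.exists_succAbove_eq hij
        refine ⟨m, ?_⟩
        rw [hm, hB'i]
        right
        rw [hR]
        exact ⟨ha, hxP⟩
    · obtain ⟨m, hm⟩ := Fin.exists_succAbove_eq haj
      refine ⟨m, ?_⟩
      rw [hm]
      exact hsubB a haj ha
  refine ⟨fun m => B' (j.succAbove m), fun m => hB'meas _, hBdisj, hBcover, ?_⟩
  -- first moments of the new cells
  have hzR : ∫ x in R, x ∂(stdGaussian (EuclideanSpace ℝ (Fin d)))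
      = (∫ x in A j, x ∂(stdGaussian (EuclideanSpace ℝ (Fin d))))
        - ∫ x in P, x ∂(stdGaussian (EuclideanSpace ℝ (Fin d))) := by
    rw [hR]
    exact setIntegral_sdiff hPm hint.integrableOn hPsub
  have hzi : ∫ x in B' i, x ∂(stdGaussian (EuclideanSpace ℝ (Fin d)))
      = (∫ x in A i, x ∂(stdGaussian (EuclideanSpace ℝ (Fin d))))
        + (∫ x in A j, x ∂(stdGaussian (EuclideanSpace ℝ (Fin d))))
        - ∫ x in P, x ∂(stdGaussian (EuclideanSpace ℝ (Fin d))) := by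
    rw [hB'i, setIntegral_union
      (Set.disjoint_left.2 (fun x hx hxR => Set.disjoint_left.1 (hdisj i j hij) hx (hRsub hxR)))
      hRm hint.integrableOn hint.integrableOn, hzR, add_sub_assoc]
  have hzl : ∫ x in B' l, x ∂(stdGaussian (EuclideanSpace ℝ (Fin d)))
      = (∫ x in A l, x ∂(stdGaussian (EuclideanSpace ℝ (Fin d))))
        + ∫ x in P, x ∂(stdGaussian (EuclideanSpace ℝ (Fin d))) := by
    rw [hB'l, setIntegral_union
      (Set.disjoint_left.2 (fun x hx hxP => Set.disjoint_left.1 (hdisj l j hlj) hx (hPsub hxP)))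
      hPm hint.integrableOn hint.integrableOn]
  have hzj : ∫ x in B' j, x ∂(stdGaussian (EuclideanSpace ℝ (Fin d))) = 0 := by
    rw [hB'j]
    simp
  -- the sum of squares of the regrouped family
  have hsplit := Fin.sum_univ_succAbove
    (fun a => ‖∫ x in B' a, x ∂(stdGaussian (EuclideanSpace ℝ (Fin d)))‖ ^ 2) j
  have hthree := sum_three_exceptions
    (fun a => ‖∫ x in B' a, x ∂(stdGaussian (EuclideanSpace ℝ (Fin d)))‖ ^ 2)
    (fun a => ‖∫ x in A a, x ∂(stdGaussian (EuclideanSpace ℝ (Fin d)))‖ ^ 2) i j l hij hli hlj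
    (by
      intro a h1 h2 h3
      show ‖∫ x in B' a, x ∂(stdGaussian (EuclideanSpace ℝ (Fin d)))‖ ^ 2
        = ‖∫ x in A a, x ∂(stdGaussian (EuclideanSpace ℝ (Fin d)))‖ ^ 2
      rw [hB'o a h1 h2 h3])
  simp only [hzi, hzl, hzj] at hsplit hthree
  rw [hthree] at hsplit
  simp only [norm_zero] at hsplit
  linarith

/-- Reduction from `k + 1` cells to `k` cells, existence form: every measurable partition `A`
into `k + 1` cells can be regrouped into a measurable partition `B` into `k` cells with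
`((k+1)² k - 2k + 2) F(A) ≤ (k+1)² k F(B)`. -/
theorem cell_reduction_exists {k : ℕ} (hk : 2 ≤ k)
    (A : Fin (k + 1) → Set (EuclideanSpace ℝ (Fin d)))
    (hA : ∀ i, MeasurableSet (A i)) (hdisj : ∀ i j, i ≠ j → Disjoint (A i) (A j))
    (hcover : ⋃ i, A i = Set.univ) :
    ∃ B : Fin k → Set (EuclideanSpace ℝ (Fin d)), (∀ m, MeasurableSet (B m)) ∧
      (∀ a b, a ≠ b → Disjoint (B a) (B b)) ∧ ⋃ m, B m = Set.univ ∧
      (((k : ℝ) + 1) ^ 2 * (k : ℝ) - 2 * (k : ℝ) + 2)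
          * ∑ m, ‖∫ x in A m, x ∂(stdGaussian (EuclideanSpace ℝ (Fin d)))‖ ^ 2
        ≤ ((k : ℝ) + 1) ^ 2 * (k : ℝ)
          * ∑ m, ‖∫ x in B m, x ∂(stdGaussian (EuclideanSpace ℝ (Fin d)))‖ ^ 2 := by
  obtain ⟨i, j, l, hij, hli, hlj, h⟩ := regroup_alg_exists (n := k + 1) (by omega)
    (fun i j => ∫ x in A i ∩ {x | -x ∈ A j}, x ∂(stdGaussian (EuclideanSpace ℝ (Fin d))))
    (fun i j => Vale.Agent.Lib.P226.first_moment_antipodal_antisymm A hA i j)
  simp only [← Vale.Agent.Lib.P226.first_moment_eq_sum_antipodal A hA hdisj hcover] at h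
  obtain ⟨B, hB1, hB2, hB3, hB4⟩ := regroup_exists A hA hdisj hcover i j l hij hli hlj
  refine ⟨B, hB1, hB2, hB3, ?_⟩
  rw [hB4]
  push_cast at h
  have e1 : ((k : ℝ) + 1) ^ 2 * ((k : ℝ) + 1 - 1) - 2 * ((k : ℝ) + 1) + 4
      = ((k : ℝ) + 1) ^ 2 * (k : ℝ) - 2 * (k : ℝ) + 2 := by ring
  have e2 : ((k : ℝ) + 1) ^ 2 * ((k : ℝ) + 1 - 1) = ((k : ℝ) + 1) ^ 2 * (k : ℝ) := by ring
  rw [e1, e2] at h
  exact h

/-- Reduction from `k + 1` cells to `k` cells: if every measurable partition into `k` cells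
has sum of squares at most `C`, then every measurable partition into `k + 1` cells has
`((k+1)² k - 2k + 2) F ≤ (k+1)² k C`. -/
theorem cell_reduction {k : ℕ} (hk : 2 ≤ k) (C : ℝ)
    (hC : ∀ B : Fin k → Set (EuclideanSpace ℝ (Fin d)), (∀ m, MeasurableSet (B m)) →
      (∀ a b, a ≠ b → Disjoint (B a) (B b)) → ⋃ m, B m = Set.univ →
      ∑ m, ‖∫ x in B m, x ∂(stdGaussian (EuclideanSpace ℝ (Fin d)))‖ ^ 2 ≤ C)
    (A : Fin (k + 1) → Set (EuclideanSpace ℝ (Fin d)))
    (hA : ∀ i, MeasurableSet (A i)) (hdisj : ∀ i j, i ≠ j → Disjoint (A i) (A j))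
    (hcover : ⋃ i, A i = Set.univ) :
    (((k : ℝ) + 1) ^ 2 * (k : ℝ) - 2 * (k : ℝ) + 2)
        * ∑ m, ‖∫ x in A m, x ∂(stdGaussian (EuclideanSpace ℝ (Fin d)))‖ ^ 2
      ≤ ((k : ℝ) + 1) ^ 2 * (k : ℝ) * C := by
  obtain ⟨B, hB1, hB2, hB3, hB4⟩ := cell_reduction_exists hk A hA hdisj hcover
  have hk0 : (0 : ℝ) ≤ ((k : ℝ) + 1) ^ 2 * (k : ℝ) := by positivity
  exact hB4.trans (mul_le_mul_of_nonneg_left (hC B hB1 hB2 hB3) hk0)

/-- Five cells from four cells: if every measurable partition into four cells satisfies the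
propeller inequality, then every measurable partition into five cells has sum of squares at
most `225 / (188 π)`. -/
theorem five_cells
    (h4 : ∀ B : Fin 4 → Set (EuclideanSpace ℝ (Fin d)), (∀ m, MeasurableSet (B m)) →
      (∀ a b, a ≠ b → Disjoint (B a) (B b)) → ⋃ m, B m = Set.univ →
      ∑ m, ‖∫ x in B m, x ∂(stdGaussian (EuclideanSpace ℝ (Fin d)))‖ ^ 2 ≤ 9 / (8 * Real.pi))
    (A : Fin 5 → Set (EuclideanSpace ℝ (Fin d)))
    (hA : ∀ i, MeasurableSet (A i)) (hdisj : ∀ i j, i ≠ j → Disjoint (A i) (A j))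
    (hcover : ⋃ i, A i = Set.univ) :
    ∑ m, ‖∫ x in A m, x ∂(stdGaussian (EuclideanSpace ℝ (Fin d)))‖ ^ 2
      ≤ 225 / (188 * Real.pi) := by
  have h := cell_reduction (k := 4) (by norm_num) (9 / (8 * Real.pi)) h4 A hA hdisj hcover
  have hpi : 0 < Real.pi := Real.pi_pos
  have e : (225 : ℝ) / (188 * Real.pi) = 100 / 94 * (9 / (8 * Real.pi)) := by
    field_simp
    ring
  rw [e]
  norm_num at h
  linarith

/-- Six cells from four cells: under the same hypothesis every measurable partition into six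
cells has sum of squares at most `10125 / (8084 π)`. -/
theorem six_cells
    (h4 : ∀ B : Fin 4 → Set (EuclideanSpace ℝ (Fin d)), (∀ m, MeasurableSet (B m)) →
      (∀ a b, a ≠ b → Disjoint (B a) (B b)) → ⋃ m, B m = Set.univ →
      ∑ m, ‖∫ x in B m, x ∂(stdGaussian (EuclideanSpace ℝ (Fin d)))‖ ^ 2 ≤ 9 / (8 * Real.pi))
    (A : Fin 6 → Set (EuclideanSpace ℝ (Fin d)))
    (hA : ∀ i, MeasurableSet (A i)) (hdisj : ∀ i j, i ≠ j → Disjoint (A i) (A j))
    (hcover : ⋃ i, A i = Set.univ) :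
    ∑ m, ‖∫ x in A m, x ∂(stdGaussian (EuclideanSpace ℝ (Fin d)))‖ ^ 2
      ≤ 10125 / (8084 * Real.pi) := by
  have h := cell_reduction (k := 5) (by norm_num) (225 / (188 * Real.pi))
    (fun B hB hBd hBc => five_cells h4 B hB hBd hBc) A hA hdisj hcover
  have hpi : 0 < Real.pi := Real.pi_pos
  have e : (10125 : ℝ) / (8084 * Real.pi) = 180 / 172 * (225 / (188 * Real.pi)) := by
    field_simp
    ring
  rw [e]
  norm_num at h
  linarith

end Meas

end Vale.Agent.Lib.P226.H35
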