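import Mathlib
import Vale.Agent.Lib.P226.helper35.Regroup
import Vale.Agent.Lib.P226.helper35.Obtuse

namespace Vale.Agent.Lib.P226.H35

open MeasureTheory ProbabilityTheory Set

section Merge

variable {d : ℕ}

/-- A sum over `Fin (k + 1)` of a function that agrees with another one outside two distinct
indices. -/
theorem sum_two_exceptions {k : ℕ} (f h : Fin (k + 1) → ℝ) (i j : Fin (k + 1)) (hij : i ≠ j)
    (hfh : ∀ a, a ≠ j → a ≠ i → f a = h a) :
    ∑ a, f a = ∑ a, h a + (f i - h i) + (f j - h j) := by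
  have hpt : ∀ a, f a = h a + (if a = i then f a - h a else 0)
      + (if a = j then f a - h a else 0) := by
    intro a
    by_cases h1 : a = i
    · have h2 : a ≠ j := fun hh => hij (h1.symm.trans hh)
      rw [if_pos h1, if_neg h2]
      ring
    · by_cases h2 : a = j
      · rw [if_neg h1, if_pos h2]
        ring
      · rw [if_neg h1, if_neg h2, hfh a h2 h1]
        ring
  rw [Finset.sum_congr rfl (fun a _ => hpt a)]
  simp only [Finset.sum_add_distrib, Finset.sum_ite_eq', Finset.mem_univ, if_true]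

/-- Merging two cells `A i`, `A j` of a measurable partition into `k + 1` cells gives a
measurable partition into `k` cells whose sum of squares is the old one plus
`2 ⟪z(A i), z(A j)⟫`. -/
theorem merge_exists {k : ℕ} (A : Fin (k + 1) → Set (EuclideanSpace ℝ (Fin d)))
    (hA : ∀ i, MeasurableSet (A i)) (hdisj : ∀ i j, i ≠ j → Disjoint (A i) (A j))
    (hcover : ⋃ i, A i = Set.univ) (i j : Fin (k + 1)) (hij : i ≠ j) :
    ∃ B : Fin k → Set (EuclideanSpace ℝ (Fin d)), (∀ m, MeasurableSet (B m)) ∧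
      (∀ a b, a ≠ b → Disjoint (B a) (B b)) ∧ ⋃ m, B m = Set.univ ∧
      ∑ m, ‖∫ x in B m, x ∂(stdGaussian (EuclideanSpace ℝ (Fin d)))‖ ^ 2
        = (∑ m, ‖∫ x in A m, x ∂(stdGaussian (EuclideanSpace ℝ (Fin d)))‖ ^ 2)
          + 2 * inner ℝ (∫ x in A i, x ∂(stdGaussian (EuclideanSpace ℝ (Fin d))))
              (∫ x in A j, x ∂(stdGaussian (EuclideanSpace ℝ (Fin d)))) := by
  have hint : Integrable (fun x : EuclideanSpace ℝ (Fin d) => x)
      (stdGaussian (EuclideanSpace ℝ (Fin d))) := IsGaussian.integrable_id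
  obtain ⟨B', hB'⟩ : ∃ B' : Fin (k + 1) → Set (EuclideanSpace ℝ (Fin d)),
      ∀ m, B' m = if m = j then ∅ else if m = i then A i ∪ A j else A m := ⟨_, fun _ => rfl⟩
  have hB'j : B' j = ∅ := by rw [hB' j, if_pos rfl]
  have hB'i : B' i = A i ∪ A j := by rw [hB' i, if_neg hij, if_pos rfl]
  have hB'o : ∀ m, m ≠ j → m ≠ i → B' m = A m := by
    intro m h1 h2
    rw [hB' m, if_neg h1, if_neg h2]
  have hmem : ∀ m, m ≠ j → ∀ x, x ∈ B' m → x ∈ A m ∨ (m = i ∧ x ∈ A j) := by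
    intro m hmj x hx
    by_cases hmi : m = i
    · rw [hmi, hB'i] at hx
      rcases hx with hx | hx
      · left
        rw [hmi]
        exact hx
      · right
        exact ⟨hmi, hx⟩
    · rw [hB'o m hmj hmi] at hx
      left
      exact hx
  have hsubB : ∀ m, m ≠ j → A m ⊆ B' m := by
    intro m hmj
    by_cases hmi : m = i
    · rw [hmi, hB'i]
      exact Set.subset_union_left
    · rw [hB'o m hmj hmi]
  have hB'meas : ∀ m, MeasurableSet (B' m) := by
    intro m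
    by_cases hmj : m = j
    · rw [hmj, hB'j]
      exact MeasurableSet.empty
    · by_cases hmi : m = i
      · rw [hmi, hB'i]
        exact (hA i).union (hA j)
      · rw [hB'o m hmj hmi]
        exact hA m
  have hB'disj : ∀ a b, a ≠ j → b ≠ j → a ≠ b → Disjoint (B' a) (B' b) := by
    intro a b haj hbj hab
    rw [Set.disjoint_left]
    intro x hxa hxb
    rcases hmem a haj x hxa with h1 | ⟨h1, h1'⟩ <;>
      rcases hmem b hbj x hxb with h2 | ⟨h2, h2'⟩
    · exact Set.disjoint_left.1 (hdisj a b hab) h1 h2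
    · exact Set.disjoint_left.1 (hdisj a j haj) h1 h2'
    · exact Set.disjoint_left.1 (hdisj b j hbj) h2 h1'
    · exact hab (h1.trans h2.symm)
  have hBdisj : ∀ a b : Fin k, a ≠ b →
      Disjoint (B' (j.succAbove a)) (B' (j.succAbove b)) := by
    intro a b hab
    exact hB'disj _ _ (Fin.succAbove_ne j a) (Fin.succAbove_ne j b)
      (fun hh => hab (Fin.succAbove_right_injective hh))
  have hBcover : ⋃ m : Fin k, B' (j.succAbove m) = Set.univ := by
    rw [Set.eq_univ_iff_forall]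
    intro x
    have hx : x ∈ ⋃ a, A a := by
      rw [hcover]
      exact Set.mem_univ x
    obtain ⟨a, ha⟩ := Set.mem_iUnion.1 hx
    rw [Set.mem_iUnion]
    by_cases haj : a = j
    · rw [haj] at ha
      obtain ⟨m, hm⟩ := Fin.exists_succAbove_eq hij
      refine ⟨m, ?_⟩
      rw [hm, hB'i]
      exact Or.inr ha
    · obtain ⟨m, hm⟩ := Fin.exists_succAbove_eq haj
      refine ⟨m, ?_⟩
      rw [hm]
      exact hsubB a haj ha
  refine ⟨fun m => B' (j.succAbove m), fun m => hB'meas _, hBdisj, hBcover, ?_⟩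
  have hzi : ∫ x in B' i, x ∂(stdGaussian (EuclideanSpace ℝ (Fin d)))
      = (∫ x in A i, x ∂(stdGaussian (EuclideanSpace ℝ (Fin d))))
        + ∫ x in A j, x ∂(stdGaussian (EuclideanSpace ℝ (Fin d))) := by
    rw [hB'i, setIntegral_union (hdisj i j hij) (hA j) hint.integrableOn hint.integrableOn]
  have hzj : ∫ x in B' j, x ∂(stdGaussian (EuclideanSpace ℝ (Fin d))) = 0 := by
    rw [hB'j]
    simp
  have hsplit := Fin.sum_univ_succAbove
    (fun a => ‖∫ x in B' a, x ∂(stdGaussian (EuclideanSpace ℝ (Fin d)))‖ ^ 2) j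
  have htwo := sum_two_exceptions
    (fun a => ‖∫ x in B' a, x ∂(stdGaussian (EuclideanSpace ℝ (Fin d)))‖ ^ 2)
    (fun a => ‖∫ x in A a, x ∂(stdGaussian (EuclideanSpace ℝ (Fin d)))‖ ^ 2) i j hij
    (by
      intro a h1 h2
      show ‖∫ x in B' a, x ∂(stdGaussian (EuclideanSpace ℝ (Fin d)))‖ ^ 2
        = ‖∫ x in A a, x ∂(stdGaussian (EuclideanSpace ℝ (Fin d)))‖ ^ 2
      rw [hB'o a h1 h2])
  simp only [hzi, hzj] at hsplit htwo
  rw [htwo, norm_add_sq_real] at hsplit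
  simp only [norm_zero] at hsplit
  linarith

/-- Reduction of the number of cells to `d + 1` in `ℝ^d`: every measurable partition into
`d + 1 + k` cells can be merged into a measurable partition into `d + 1` cells without
decreasing the sum of squares. -/
theorem dim_reduction (d : ℕ) : ∀ (k : ℕ) (A : Fin (d + 1 + k) → Set (EuclideanSpace ℝ (Fin d))),
    (∀ i, MeasurableSet (A i)) → (∀ i j, i ≠ j → Disjoint (A i) (A j)) → ⋃ i, A i = Set.univ →
    ∃ B : Fin (d + 1) → Set (EuclideanSpace ℝ (Fin d)), (∀ m, MeasurableSet (B m)) ∧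
      (∀ a b, a ≠ b → Disjoint (B a) (B b)) ∧ ⋃ m, B m = Set.univ ∧
      ∑ m, ‖∫ x in A m, x ∂(stdGaussian (EuclideanSpace ℝ (Fin d)))‖ ^ 2
        ≤ ∑ m, ‖∫ x in B m, x ∂(stdGaussian (EuclideanSpace ℝ (Fin d)))‖ ^ 2 := by
  intro k
  induction k with
  | zero =>
    intro A hA hdisj hcover
    exact ⟨A, hA, hdisj, hcover, le_refl _⟩
  | succ k ih =>
    intro A hA hdisj hcover
    have hfin : Module.finrank ℝ (EuclideanSpace ℝ (Fin d)) + 2 ≤ d + 1 + (k + 1) := by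
      rw [finrank_euclideanSpace_fin]
      omega
    obtain ⟨i, j, hij, hnn⟩ := exists_nonneg_inner
      (fun m : Fin (d + 1 + (k + 1)) => ∫ x in A m, x ∂(stdGaussian (EuclideanSpace ℝ (Fin d))))
      hfin
    obtain ⟨B, hB1, hB2, hB3, hB4⟩ := merge_exists (k := d + 1 + k) A hA hdisj hcover i j hij
    obtain ⟨B', hB'1, hB'2, hB'3, hB'4⟩ := ih B hB1 hB2 hB3
    refine ⟨B', hB'1, hB'2, hB'3, le_trans ?_ hB'4⟩
    rw [hB4]
    exact le_add_of_nonneg_right (mul_nonneg (by norm_num) hnn)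

/-- Dimension form of the cell reduction: for `d ≥ 2`, every measurable partition of `ℝ^d` into
`d + 1 + k` cells can be regrouped into a measurable partition into `d` cells with
`((d+1)² d - 2d + 2) F(A) ≤ (d+1)² d F(B)`. -/
theorem dim_cell_reduction {d : ℕ} (hd : 2 ≤ d) (k : ℕ)
    (A : Fin (d + 1 + k) → Set (EuclideanSpace ℝ (Fin d)))
    (hA : ∀ i, MeasurableSet (A i)) (hdisj : ∀ i j, i ≠ j → Disjoint (A i) (A j))
    (hcover : ⋃ i, A i = Set.univ) :
    ∃ B : Fin d → Set (EuclideanSpace ℝ (Fin d)), (∀ m, MeasurableSet (B m)) ∧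
      (∀ a b, a ≠ b → Disjoint (B a) (B b)) ∧ ⋃ m, B m = Set.univ ∧
      (((d : ℝ) + 1) ^ 2 * (d : ℝ) - 2 * (d : ℝ) + 2)
          * ∑ m, ‖∫ x in A m, x ∂(stdGaussian (EuclideanSpace ℝ (Fin d)))‖ ^ 2
        ≤ ((d : ℝ) + 1) ^ 2 * (d : ℝ)
          * ∑ m, ‖∫ x in B m, x ∂(stdGaussian (EuclideanSpace ℝ (Fin d)))‖ ^ 2 := by
  obtain ⟨B1, h1, h2, h3, h4⟩ := dim_reduction d k A hA hdisj hcover
  obtain ⟨B, hB1, hB2, hB3, hB4⟩ := cell_reduction_exists (k := d) hd B1 h1 h2 h3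
  refine ⟨B, hB1, hB2, hB3, le_trans ?_ hB4⟩
  have hd2 : (2 : ℝ) ≤ (d : ℝ) := by exact_mod_cast hd
  have hcoef : (0 : ℝ) ≤ ((d : ℝ) + 1) ^ 2 * (d : ℝ) - 2 * (d : ℝ) + 2 := by nlinarith
  exact mul_le_mul_of_nonneg_left h4 hcoef

/-- All partitions of `ℝ^4` into at least five cells: if every measurable partition of `ℝ^4`
into four cells satisfies the propeller inequality, then every measurable partition of `ℝ^4`
into `5 + k` cells has sum of squares at most `225 / (188 π)`. -/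
theorem four_space
    (h4 : ∀ B : Fin 4 → Set (EuclideanSpace ℝ (Fin 4)), (∀ m, MeasurableSet (B m)) →
      (∀ a b, a ≠ b → Disjoint (B a) (B b)) → ⋃ m, B m = Set.univ →
      ∑ m, ‖∫ x in B m, x ∂(stdGaussian (EuclideanSpace ℝ (Fin 4)))‖ ^ 2 ≤ 9 / (8 * Real.pi))
    (k : ℕ) (A : Fin (5 + k) → Set (EuclideanSpace ℝ (Fin 4)))
    (hA : ∀ i, MeasurableSet (A i)) (hdisj : ∀ i j, i ≠ j → Disjoint (A i) (A j))
    (hcover : ⋃ i, A i = Set.univ) :
    ∑ m, ‖∫ x in A m, x ∂(stdGaussian (EuclideanSpace ℝ (Fin 4)))‖ ^ 2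
      ≤ 225 / (188 * Real.pi) := by
  obtain ⟨B, hB1, hB2, hB3, hB4⟩ := dim_cell_reduction (d := 4) (by norm_num) k A hA hdisj hcover
  have h := h4 B hB1 hB2 hB3
  have hpi : 0 < Real.pi := Real.pi_pos
  have e : (225 : ℝ) / (188 * Real.pi) = 100 / 94 * (9 / (8 * Real.pi)) := by
    field_simp
    ring
  rw [e]
  norm_num at hB4
  linarith

/-- All partitions of `ℝ^5` into at least six cells: if every measurable partition of `ℝ^5`
into four cells satisfies the propeller inequality, then every measurable partition of `ℝ^5`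
into `6 + k` cells has sum of squares at most `10125 / (8084 π)`. -/
theorem five_space
    (h4 : ∀ B : Fin 4 → Set (EuclideanSpace ℝ (Fin 5)), (∀ m, MeasurableSet (B m)) →
      (∀ a b, a ≠ b → Disjoint (B a) (B b)) → ⋃ m, B m = Set.univ →
      ∑ m, ‖∫ x in B m, x ∂(stdGaussian (EuclideanSpace ℝ (Fin 5)))‖ ^ 2 ≤ 9 / (8 * Real.pi))
    (k : ℕ) (A : Fin (6 + k) → Set (EuclideanSpace ℝ (Fin 5)))
    (hA : ∀ i, MeasurableSet (A i)) (hdisj : ∀ i j, i ≠ j → Disjoint (A i) (A j))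
    (hcover : ⋃ i, A i = Set.univ) :
    ∑ m, ‖∫ x in A m, x ∂(stdGaussian (EuclideanSpace ℝ (Fin 5)))‖ ^ 2
      ≤ 10125 / (8084 * Real.pi) := by
  obtain ⟨B, hB1, hB2, hB3, hB4⟩ := dim_cell_reduction (d := 5) (by norm_num) k A hA hdisj hcover
  have h := five_cells h4 B hB1 hB2 hB3
  have hpi : 0 < Real.pi := Real.pi_pos
  have e : (10125 : ℝ) / (8084 * Real.pi) = 180 / 172 * (225 / (188 * Real.pi)) := by
    field_simp
    ring
  rw [e]
  norm_num at hB4
  linarith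

/-- Adding one empty cell to a measurable partition. -/
theorem pad_one {n : ℕ} (A : Fin n → Set (EuclideanSpace ℝ (Fin d)))
    (hA : ∀ i, MeasurableSet (A i)) (hdisj : ∀ i j, i ≠ j → Disjoint (A i) (A j))
    (hcover : ⋃ i, A i = Set.univ) :
    ∃ A' : Fin (n + 1) → Set (EuclideanSpace ℝ (Fin d)), (∀ m, MeasurableSet (A' m)) ∧
      (∀ a b, a ≠ b → Disjoint (A' a) (A' b)) ∧ ⋃ m, A' m = Set.univ ∧
      ∑ m, ‖∫ x in A' m, x ∂(stdGaussian (EuclideanSpace ℝ (Fin d)))‖ ^ 2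
        = ∑ m, ‖∫ x in A m, x ∂(stdGaussian (EuclideanSpace ℝ (Fin d)))‖ ^ 2 := by
  obtain ⟨A', hA'⟩ : ∃ A' : Fin (n + 1) → Set (EuclideanSpace ℝ (Fin d)),
      A' 0 = ∅ ∧ ∀ i : Fin n, A' i.succ = A i :=
    ⟨Fin.cons ∅ A, Fin.cons_zero _ _, fun i => Fin.cons_succ _ _ i⟩
  obtain ⟨h0, hs⟩ := hA'
  refine ⟨A', ?_, ?_, ?_, ?_⟩
  · intro m
    refine Fin.cases ?_ ?_ m
    · rw [h0]
      exact MeasurableSet.empty
    · intro i
      rw [hs i]
      exact hA i
  · intro a b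
    refine Fin.cases ?_ ?_ a
    · intro _
      rw [h0]
      exact Set.empty_disjoint _
    · intro i
      refine Fin.cases ?_ ?_ b
      · intro _
        rw [h0]
        exact Set.disjoint_empty _
      · intro i' hab
        rw [hs i, hs i']
        exact hdisj i i' (fun h => hab (by rw [h]))
  · rw [Set.eq_univ_iff_forall]
    intro x
    have hx : x ∈ ⋃ a, A a := by
      rw [hcover]
      exact Set.mem_univ x
    obtain ⟨a, ha⟩ := Set.mem_iUnion.1 hx
    rw [Set.mem_iUnion]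
    refine ⟨a.succ, ?_⟩
    rw [hs a]
    exact ha
  · rw [Fin.sum_univ_succ, h0]
    simp only [hs]
    simp

/-- Adding `j` empty cells to a measurable partition. -/
theorem pad (j : ℕ) : ∀ {n : ℕ} (A : Fin n → Set (EuclideanSpace ℝ (Fin d))),
    (∀ i, MeasurableSet (A i)) → (∀ i i', i ≠ i' → Disjoint (A i) (A i')) → ⋃ i, A i = Set.univ →
    ∃ A' : Fin (n + j) → Set (EuclideanSpace ℝ (Fin d)), (∀ m, MeasurableSet (A' m)) ∧
      (∀ a b, a ≠ b → Disjoint (A' a) (A' b)) ∧ ⋃ m, A' m = Set.univ ∧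
      ∑ m, ‖∫ x in A' m, x ∂(stdGaussian (EuclideanSpace ℝ (Fin d)))‖ ^ 2
        = ∑ m, ‖∫ x in A m, x ∂(stdGaussian (EuclideanSpace ℝ (Fin d)))‖ ^ 2 := by
  induction j with
  | zero =>
    intro n A hA hdisj hcover
    exact ⟨A, hA, hdisj, hcover, rfl⟩
  | succ j ih =>
    intro n A hA hdisj hcover
    obtain ⟨A1, h1, h2, h3, h4⟩ := ih A hA hdisj hcover
    obtain ⟨A2, g1, g2, g3, g4⟩ := pad_one A1 h1 h2 h3
    exact ⟨A2, g1, g2, g3, g4.trans h4⟩

/-- Reindexing a measurable partition along a bijection of the index sets. -/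
theorem reindex {a b : ℕ} (e : Fin a ≃ Fin b) (A : Fin b → Set (EuclideanSpace ℝ (Fin d)))
    (hA : ∀ i, MeasurableSet (A i)) (hdisj : ∀ i j, i ≠ j → Disjoint (A i) (A j))
    (hcover : ⋃ i, A i = Set.univ) :
    (∀ i, MeasurableSet (A (e i))) ∧ (∀ i j, i ≠ j → Disjoint (A (e i)) (A (e j))) ∧
      ⋃ i, A (e i) = Set.univ ∧
      ∑ i, ‖∫ x in A (e i), x ∂(stdGaussian (EuclideanSpace ℝ (Fin d)))‖ ^ 2
        = ∑ m, ‖∫ x in A m, x ∂(stdGaussian (EuclideanSpace ℝ (Fin d)))‖ ^ 2 := by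
  refine ⟨fun i => hA (e i), fun i j hij => hdisj _ _ (fun h => hij (e.injective h)), ?_, ?_⟩
  · rw [Set.eq_univ_iff_forall]
    intro x
    have hx : x ∈ ⋃ a, A a := by
      rw [hcover]
      exact Set.mem_univ x
    obtain ⟨m, hm⟩ := Set.mem_iUnion.1 hx
    rw [Set.mem_iUnion]
    refine ⟨e.symm m, ?_⟩
    rw [Equiv.apply_symm_apply]
    exact hm
  · exact Equiv.sum_comp e
      (fun m => ‖∫ x in A m, x ∂(stdGaussian (EuclideanSpace ℝ (Fin d)))‖ ^ 2)

/-- Every finite measurable partition of `ℝ^4`: if every measurable partition of `ℝ^4` into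
four cells satisfies the propeller inequality, then every measurable partition of `ℝ^4` into
any finite number of cells has sum of squares at most `225 / (188 π)`. -/
theorem four_space_all
    (h4 : ∀ B : Fin 4 → Set (EuclideanSpace ℝ (Fin 4)), (∀ m, MeasurableSet (B m)) →
      (∀ a b, a ≠ b → Disjoint (B a) (B b)) → ⋃ m, B m = Set.univ →
      ∑ m, ‖∫ x in B m, x ∂(stdGaussian (EuclideanSpace ℝ (Fin 4)))‖ ^ 2 ≤ 9 / (8 * Real.pi))
    (n : ℕ) (A : Fin n → Set (EuclideanSpace ℝ (Fin 4)))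
    (hA : ∀ i, MeasurableSet (A i)) (hdisj : ∀ i j, i ≠ j → Disjoint (A i) (A j))
    (hcover : ⋃ i, A i = Set.univ) :
    ∑ m, ‖∫ x in A m, x ∂(stdGaussian (EuclideanSpace ℝ (Fin 4)))‖ ^ 2
      ≤ 225 / (188 * Real.pi) := by
  obtain ⟨A1, h1, h2, h3, h4'⟩ := pad 5 A hA hdisj hcover
  obtain ⟨g1, g2, g3, g4⟩ := reindex (finCongr (Nat.add_comm 5 n)) A1 h1 h2 h3
  have h := four_space h4 n (fun i => A1 (finCongr (Nat.add_comm 5 n) i)) g1 g2 g3
  rw [g4, h4'] at h
  exact h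

/-- Every finite measurable partition of `ℝ^5`: if every measurable partition of `ℝ^5` into
four cells satisfies the propeller inequality, then every measurable partition of `ℝ^5` into
any finite number of cells has sum of squares at most `10125 / (8084 π)`. -/
theorem five_space_all
    (h4 : ∀ B : Fin 4 → Set (EuclideanSpace ℝ (Fin 5)), (∀ m, MeasurableSet (B m)) →
      (∀ a b, a ≠ b → Disjoint (B a) (B b)) → ⋃ m, B m = Set.univ →
      ∑ m, ‖∫ x in B m, x ∂(stdGaussian (EuclideanSpace ℝ (Fin 5)))‖ ^ 2 ≤ 9 / (8 * Real.pi))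
    (n : ℕ) (A : Fin n → Set (EuclideanSpace ℝ (Fin 5)))
    (hA : ∀ i, MeasurableSet (A i)) (hdisj : ∀ i j, i ≠ j → Disjoint (A i) (A j))
    (hcover : ⋃ i, A i = Set.univ) :
    ∑ m, ‖∫ x in A m, x ∂(stdGaussian (EuclideanSpace ℝ (Fin 5)))‖ ^ 2
      ≤ 10125 / (8084 * Real.pi) := by
  obtain ⟨A1, h1, h2, h3, h4'⟩ := pad 6 A hA hdisj hcover
  obtain ⟨g1, g2, g3, g4⟩ := reindex (finCongr (Nat.add_comm 6 n)) A1 h1 h2 h3
  have h := five_space h4 n (fun i => A1 (finCongr (Nat.add_comm 6 n) i)) g1 g2 g3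
  rw [g4, h4'] at h
  exact h

/-- Dimension form for an arbitrary finite number of cells: for `d ≥ 2`, every measurable
partition of `ℝ^d` into `n` cells can be regrouped into a measurable partition into `d` cells
with `((d+1)² d - 2d + 2) F(A) ≤ (d+1)² d F(B)`. -/
theorem dim_cell_reduction_all {d : ℕ} (hd : 2 ≤ d) (n : ℕ)
    (A : Fin n → Set (EuclideanSpace ℝ (Fin d)))
    (hA : ∀ i, MeasurableSet (A i)) (hdisj : ∀ i j, i ≠ j → Disjoint (A i) (A j))
    (hcover : ⋃ i, A i = Set.univ) :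
    ∃ B : Fin d → Set (EuclideanSpace ℝ (Fin d)), (∀ m, MeasurableSet (B m)) ∧
      (∀ a b, a ≠ b → Disjoint (B a) (B b)) ∧ ⋃ m, B m = Set.univ ∧
      (((d : ℝ) + 1) ^ 2 * (d : ℝ) - 2 * (d : ℝ) + 2)
          * ∑ m, ‖∫ x in A m, x ∂(stdGaussian (EuclideanSpace ℝ (Fin d)))‖ ^ 2
        ≤ ((d : ℝ) + 1) ^ 2 * (d : ℝ)
          * ∑ m, ‖∫ x in B m, x ∂(stdGaussian (EuclideanSpace ℝ (Fin d)))‖ ^ 2 := by
  obtain ⟨A1, h1, h2, h3, h4⟩ := pad (d + 1) A hA hdisj hcover
  obtain ⟨g1, g2, g3, g4⟩ := reindex (finCongr (Nat.add_comm (d + 1) n)) A1 h1 h2 h3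
  obtain ⟨B, hB1, hB2, hB3, hB4⟩ := dim_cell_reduction hd n
    (fun i => A1 (finCongr (Nat.add_comm (d + 1) n) i)) g1 g2 g3
  rw [g4, h4] at hB4
  exact ⟨B, hB1, hB2, hB3, hB4⟩

end Merge

end Vale.Agent.Lib.P226.H35
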