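import Mathlib
import Vale.Agent.Lib.P226.helper35.ChiGen
import Vale.Agent.Lib.P226.helper77.Chi

open MeasureTheory ProbabilityTheory

namespace Vale.Agent.Lib.P226.H35G

/-- Telescoping of the one-step projection bound `ℝ^(d+1) → ℝ^d` down to `ℝ³`, with the mean
norms of the standard Gaussian kept as integrals. -/
theorem telescope
    (hstep : ∀ (d n : ℕ), 3 ≤ d → ∀ A : Fin n → Set (EuclideanSpace ℝ (Fin (d + 1))),
      (∀ i, MeasurableSet (A i)) → (∀ i j, i ≠ j → Disjoint (A i) (A j)) →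
      ⋃ i, A i = Set.univ →
      ∃ B : Fin n → Set (EuclideanSpace ℝ (Fin d)), (∀ i, MeasurableSet (B i)) ∧
        (∀ i j, i ≠ j → Disjoint (B i) (B j)) ∧ ⋃ i, B i = Set.univ ∧
        ((d : ℝ) + 1) * (∫ y, ‖y‖ ∂(stdGaussian (EuclideanSpace ℝ (Fin d)))) ^ 2
            * ∑ i, ‖∫ x in A i, x ∂(stdGaussian (EuclideanSpace ℝ (Fin (d + 1))))‖ ^ 2
          ≤ (d : ℝ) * (∫ x, ‖x‖ ∂(stdGaussian (EuclideanSpace ℝ (Fin (d + 1))))) ^ 2
            * ∑ i, ‖∫ x in B i, x ∂(stdGaussian (EuclideanSpace ℝ (Fin d)))‖ ^ 2)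
    (d : ℕ) (hd : 3 ≤ d) (n : ℕ) :
    ∀ A : Fin n → Set (EuclideanSpace ℝ (Fin d)),
      (∀ i, MeasurableSet (A i)) → (∀ i j, i ≠ j → Disjoint (A i) (A j)) →
      ⋃ i, A i = Set.univ →
      ∃ B : Fin n → Set (EuclideanSpace ℝ (Fin 3)), (∀ i, MeasurableSet (B i)) ∧
        (∀ i j, i ≠ j → Disjoint (B i) (B j)) ∧ ⋃ i, B i = Set.univ ∧
        (d : ℝ) * (∫ y, ‖y‖ ∂(stdGaussian (EuclideanSpace ℝ (Fin 3)))) ^ 2
            * ∑ i, ‖∫ x in A i, x ∂(stdGaussian (EuclideanSpace ℝ (Fin d)))‖ ^ 2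
          ≤ 3 * (∫ x, ‖x‖ ∂(stdGaussian (EuclideanSpace ℝ (Fin d)))) ^ 2
            * ∑ i, ‖∫ x in B i, x ∂(stdGaussian (EuclideanSpace ℝ (Fin 3)))‖ ^ 2 := by
  induction d, hd using Nat.le_induction with
  | base =>
    intro A hA hdisj hcover
    refine ⟨A, hA, hdisj, hcover, le_of_eq ?_⟩
    norm_num
  | succ d hd ih =>
    intro A hA hdisj hcover
    obtain ⟨B1, hB1, hB1d, hB1c, h1⟩ := hstep d n hd A hA hdisj hcover
    obtain ⟨B, hB, hBd, hBc, h2⟩ := ih B1 hB1 hB1d hB1c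
    refine ⟨B, hB, hBd, hBc, ?_⟩
    have had : 0 < ∫ y, ‖y‖ ∂(stdGaussian (EuclideanSpace ℝ (Fin d))) :=
      integral_norm_stdGaussian_pos d (by omega)
    set a3 := ∫ y, ‖y‖ ∂(stdGaussian (EuclideanSpace ℝ (Fin 3))) with ha3
    set ad := ∫ y, ‖y‖ ∂(stdGaussian (EuclideanSpace ℝ (Fin d))) with had'
    set ad1 := ∫ x, ‖x‖ ∂(stdGaussian (EuclideanSpace ℝ (Fin (d + 1)))) with had1
    set FA := ∑ i, ‖∫ x in A i, x ∂(stdGaussian (EuclideanSpace ℝ (Fin (d + 1))))‖ ^ 2 with hFA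
    set FB1 := ∑ i, ‖∫ x in B1 i, x ∂(stdGaussian (EuclideanSpace ℝ (Fin d)))‖ ^ 2 with hFB1
    set FB := ∑ i, ‖∫ x in B i, x ∂(stdGaussian (EuclideanSpace ℝ (Fin 3)))‖ ^ 2 with hFB
    have hpos : 0 < ad ^ 2 := by positivity
    have h3 : ad ^ 2 * (((d : ℝ) + 1) * a3 ^ 2 * FA) ≤ ad ^ 2 * (3 * ad1 ^ 2 * FB) := by
      have e1 : ad ^ 2 * (((d : ℝ) + 1) * a3 ^ 2 * FA)
          = a3 ^ 2 * (((d : ℝ) + 1) * ad ^ 2 * FA) := by ring
      have e2 : ad ^ 2 * (3 * ad1 ^ 2 * FB) = ad1 ^ 2 * (3 * ad ^ 2 * FB) := by ring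
      rw [e1, e2]
      calc a3 ^ 2 * (((d : ℝ) + 1) * ad ^ 2 * FA)
          ≤ a3 ^ 2 * ((d : ℝ) * ad1 ^ 2 * FB1) :=
            mul_le_mul_of_nonneg_left h1 (sq_nonneg _)
        _ = ad1 ^ 2 * ((d : ℝ) * a3 ^ 2 * FB1) := by ring
        _ ≤ ad1 ^ 2 * (3 * ad ^ 2 * FB) := mul_le_mul_of_nonneg_left h2 (sq_nonneg _)
    have h4 := le_of_mul_le_mul_left h3 hpos
    push_cast
    exact h4

/-- The constant `(3/d) (a_d / a_3)²` in closed form. -/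
theorem const_eq (d : ℕ) (hd : 0 < d) :
    3 * (∫ x, ‖x‖ ∂(stdGaussian (EuclideanSpace ℝ (Fin d)))) ^ 2
      / ((d : ℝ) * (∫ y, ‖y‖ ∂(stdGaussian (EuclideanSpace ℝ (Fin 3)))) ^ 2)
      = 3 * Real.pi / (4 * (d : ℝ))
        * (Real.Gamma (((d : ℝ) + 1) / 2) / Real.Gamma ((d : ℝ) / 2)) ^ 2 := by
  have hpi := Real.pi_pos
  have hd' : (0 : ℝ) < d := by exact_mod_cast hd
  have hG2 : 0 < Real.Gamma ((d : ℝ) / 2) := Real.Gamma_pos_of_pos (by positivity)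
  rw [integral_norm_stdGaussian_gamma d hd, H77.integral_norm_stdGaussian_three]
  have h2 : Real.sqrt 2 ^ 2 = 2 := Real.sq_sqrt (by norm_num)
  have h3 : Real.sqrt (2 / Real.pi) ^ 2 = 2 / Real.pi := Real.sq_sqrt (by positivity)
  rw [div_pow, mul_pow, mul_pow, h2, h3, div_pow]
  field_simp
  ring

/-- General-dimension projection bound, assuming the one-step bound. -/
theorem all_dims_of_step
    (hstep : ∀ (d n : ℕ), 3 ≤ d → ∀ A : Fin n → Set (EuclideanSpace ℝ (Fin (d + 1))),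
      (∀ i, MeasurableSet (A i)) → (∀ i j, i ≠ j → Disjoint (A i) (A j)) →
      ⋃ i, A i = Set.univ →
      ∃ B : Fin n → Set (EuclideanSpace ℝ (Fin d)), (∀ i, MeasurableSet (B i)) ∧
        (∀ i j, i ≠ j → Disjoint (B i) (B j)) ∧ ⋃ i, B i = Set.univ ∧
        ((d : ℝ) + 1) * (∫ y, ‖y‖ ∂(stdGaussian (EuclideanSpace ℝ (Fin d)))) ^ 2
            * ∑ i, ‖∫ x in A i, x ∂(stdGaussian (EuclideanSpace ℝ (Fin (d + 1))))‖ ^ 2
          ≤ (d : ℝ) * (∫ x, ‖x‖ ∂(stdGaussian (EuclideanSpace ℝ (Fin (d + 1))))) ^ 2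
            * ∑ i, ‖∫ x in B i, x ∂(stdGaussian (EuclideanSpace ℝ (Fin d)))‖ ^ 2)
    (d : ℕ) (hd : 3 ≤ d) (n : ℕ) (A : Fin n → Set (EuclideanSpace ℝ (Fin d)))
    (hA : ∀ i, MeasurableSet (A i)) (hdisj : ∀ i j, i ≠ j → Disjoint (A i) (A j))
    (hcover : ⋃ i, A i = Set.univ) :
    ∃ B : Fin n → Set (EuclideanSpace ℝ (Fin 3)), (∀ i, MeasurableSet (B i)) ∧
      (∀ i j, i ≠ j → Disjoint (B i) (B j)) ∧ ⋃ i, B i = Set.univ ∧
      ∑ i, ‖∫ x in A i, x ∂(stdGaussian (EuclideanSpace ℝ (Fin d)))‖ ^ 2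
        ≤ 3 * Real.pi / (4 * (d : ℝ))
            * (Real.Gamma (((d : ℝ) + 1) / 2) / Real.Gamma ((d : ℝ) / 2)) ^ 2
          * ∑ i, ‖∫ x in B i, x ∂(stdGaussian (EuclideanSpace ℝ (Fin 3)))‖ ^ 2 := by
  obtain ⟨B, hB, hBd, hBc, h⟩ := telescope hstep d hd n A hA hdisj hcover
  refine ⟨B, hB, hBd, hBc, ?_⟩
  have hd' : (0 : ℝ) < d := by exact_mod_cast (by omega : 0 < d)
  have ha3 : 0 < ∫ y, ‖y‖ ∂(stdGaussian (EuclideanSpace ℝ (Fin 3))) :=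
    integral_norm_stdGaussian_pos 3 (by norm_num)
  rw [← const_eq d (by omega)]
  have hden : 0 < (d : ℝ) * (∫ y, ‖y‖ ∂(stdGaussian (EuclideanSpace ℝ (Fin 3)))) ^ 2 := by
    positivity
  rw [div_mul_eq_mul_div, le_div_iff₀ hden]
  linarith

theorem const_four :
    3 * Real.pi / (4 * ((4 : ℕ) : ℝ))
      * (Real.Gamma ((((4 : ℕ) : ℝ) + 1) / 2) / Real.Gamma (((4 : ℕ) : ℝ) / 2)) ^ 2
      = 27 * Real.pi ^ 2 / 256 := by
  have hpi := Real.pi_pos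
  have h52 : Real.Gamma ((((4 : ℕ) : ℝ) + 1) / 2) = 3 / 4 * Real.sqrt Real.pi := by
    have e : (((4 : ℕ) : ℝ) + 1) / 2 = (1 / 2 + 1) + 1 := by norm_num
    rw [e, Real.Gamma_add_one (by norm_num), Real.Gamma_add_one (by norm_num),
      Real.Gamma_one_half_eq]
    ring
  have h2 : Real.Gamma (((4 : ℕ) : ℝ) / 2) = 1 := by
    have e : ((4 : ℕ) : ℝ) / 2 = 1 + 1 := by norm_num
    rw [e, Real.Gamma_add_one (by norm_num), Real.Gamma_one]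
    norm_num
  rw [h52, h2, div_one, mul_pow, Real.sq_sqrt hpi.le]
  push_cast
  ring

theorem const_five :
    3 * Real.pi / (4 * ((5 : ℕ) : ℝ))
      * (Real.Gamma ((((5 : ℕ) : ℝ) + 1) / 2) / Real.Gamma (((5 : ℕ) : ℝ) / 2)) ^ 2
      = 16 / 15 := by
  have hpi := Real.pi_pos
  have h3 : Real.Gamma ((((5 : ℕ) : ℝ) + 1) / 2) = 2 := by
    have e : (((5 : ℕ) : ℝ) + 1) / 2 = (1 + 1) + 1 := by norm_num
    rw [e, Real.Gamma_add_one (by norm_num), Real.Gamma_add_one (by norm_num), Real.Gamma_one]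
    norm_num
  have h52 : Real.Gamma (((5 : ℕ) : ℝ) / 2) = 3 / 4 * Real.sqrt Real.pi := by
    have e : ((5 : ℕ) : ℝ) / 2 = (1 / 2 + 1) + 1 := by norm_num
    rw [e, Real.Gamma_add_one (by norm_num), Real.Gamma_add_one (by norm_num),
      Real.Gamma_one_half_eq]
    ring
  have hs : 0 < Real.sqrt Real.pi := Real.sqrt_pos.2 hpi
  rw [h3, h52, div_pow, mul_pow, Real.sq_sqrt hpi.le]
  push_cast
  field_simp
  ring

end Vale.Agent.Lib.P226.H35G
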